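import Mathlib.MeasureTheory.Function.ConvergenceInMeasure
import Mathlib.MeasureTheory.Function.SimpleFuncDenseLp
import Mathlib.MeasureTheory.Function.LpSpace.ContinuousCompMeasurePreserving
import Mathlib.Topology.ContinuousMap.Weierstrass
import Mathlib.Analysis.RCLike.Basic
import Mathlib.MeasureTheory.Constructions.BorelSpace.Real
import Mathlib.Tactic

/-!
Functions represented in a subspace of `L^p`: algebra, dominated limits, weighted composition
operators, and passage from one multiplier to all indicator multipliers.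
-/

namespace Vale.Agent.N131L

open MeasureTheory Filter Topology
open scoped ENNReal

variable {X : Type*} [MeasurableSpace X] {μ : Measure X} {𝕜 : Type*} [RCLike 𝕜]
  {Y : Type*} [NormedAddCommGroup Y] [NormedSpace 𝕜 Y] {p : ℝ≥0∞}

/-- the function `f` represents an element of `M` -/
def FM (M : Submodule 𝕜 (Lp Y p μ)) (f : X → Y) : Prop := ∃ a ∈ M, (a : X → Y) =ᵐ[μ] f

variable {M : Submodule 𝕜 (Lp Y p μ)}

theorem FM.of_mem {a : Lp Y p μ} (ha : a ∈ M) : FM M a := ⟨a, ha, EventuallyEq.rfl⟩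

theorem FM.congr {f g : X → Y} (hf : FM M f) (h : f =ᵐ[μ] g) : FM M g := by
  obtain ⟨a, ha, h1⟩ := hf
  exact ⟨a, ha, h1.trans h⟩

theorem FM.mem {a : Lp Y p μ} (h : FM M a) : a ∈ M := by
  obtain ⟨b, hb, h1⟩ := h
  rwa [← Lp.ext h1]

theorem FM.memLp {f : X → Y} (hf : FM M f) : MemLp f p μ := by
  obtain ⟨a, -, h1⟩ := hf
  exact (Lp.memLp a).ae_eq h1

theorem FM.zero : FM M (fun _ => 0) := ⟨0, M.zero_mem, Lp.coeFn_zero _ _ _⟩

theorem FM.add {f g : X → Y} (hf : FM M f) (hg : FM M g) : FM M (fun x => f x + g x) := by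
  obtain ⟨a, ha, h1⟩ := hf
  obtain ⟨b, hb, h2⟩ := hg
  refine ⟨a + b, M.add_mem ha hb, ?_⟩
  filter_upwards [Lp.coeFn_add a b, h1, h2] with x e1 e2 e3
  rw [e1, Pi.add_apply, e2, e3]

theorem FM.smul {f : X → Y} (hf : FM M f) (c : 𝕜) : FM M (fun x => c • f x) := by
  obtain ⟨a, ha, h1⟩ := hf
  refine ⟨c • a, M.smul_mem c ha, ?_⟩
  filter_upwards [Lp.coeFn_smul c a, h1] with x e1 e2
  rw [e1, Pi.smul_apply, e2]

theorem FM.sub {f g : X → Y} (hf : FM M f) (hg : FM M g) : FM M (fun x => f x - g x) := by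
  refine (hf.add (hg.smul (-1))).congr (Eventually.of_forall fun x => ?_)
  simp [sub_eq_add_neg]

theorem FM.sum {ι : Type*} (s : Finset ι) {f : ι → X → Y} (hf : ∀ i ∈ s, FM M (f i)) :
    FM M (fun x => ∑ i ∈ s, f i x) := by
  classical
  induction s using Finset.induction_on with
  | empty => simpa using FM.zero
  | insert i s hi ih =>
    refine ((hf i (Finset.mem_insert_self i s)).add
      (ih fun j hj => hf j (Finset.mem_insert_of_mem hj))).congr
      (Eventually.of_forall fun x => ?_)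
    simp only [Finset.sum_insert hi]

/-- dominated convergence -/
theorem FM.lim [Fact (1 ≤ p)] (hp : p ≠ ∞) (hM : IsClosed (M : Set (Lp Y p μ)))
    {f : ℕ → X → Y} {g : X → Y} {b : X → ℝ} (hb : MemLp b p μ) (hf : ∀ j, FM M (f j))
    (hfb : ∀ j, ∀ᵐ x ∂μ, ‖f j x‖ ≤ b x)
    (hlim : ∀ᵐ x ∂μ, Tendsto (fun j => f j x) atTop (𝓝 (g x))) : FM M g := by
  have hp0 : p ≠ 0 := (zero_lt_one.trans_le (Fact.out : 1 ≤ p)).ne'
  have hr : 0 < p.toReal := ENNReal.toReal_pos hp0 hp
  have hgm : AEStronglyMeasurable g μ :=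
    aestronglyMeasurable_of_tendsto_ae atTop (fun j => (hf j).memLp.1) hlim
  have hgb : ∀ᵐ x ∂μ, ‖g x‖ ≤ b x := by
    filter_upwards [ae_all_iff.2 hfb, hlim] with x h1 h2
    exact le_of_tendsto' h2.norm h1
  have hg : MemLp g p μ := by
    refine hb.of_le hgm ?_
    filter_upwards [hgb] with x h
    exact h.trans (le_abs_self _)
  choose a haM ha using hf
  refine ⟨hg.toLp g, ?_, hg.coeFn_toLp⟩
  refine hM.mem_of_tendsto (f := a) (b := atTop) ?_ (Eventually.of_forall haM)
  rw [Lp.tendsto_Lp_iff_tendsto_eLpNorm]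
  simp only [eLpNorm_eq_lintegral_rpow_enorm_toReal hp0 hp]
  have h2b : MemLp (fun x => 2 * b x) p μ := hb.const_mul 2
  have key : Tendsto (fun j => ∫⁻ x, ‖((a j : X → Y) - g) x‖ₑ ^ p.toReal ∂μ) atTop
      (𝓝 (∫⁻ _x, (0 : ℝ≥0∞) ∂μ)) := by
    refine tendsto_lintegral_of_dominated_convergence' (fun x => ‖2 * b x‖ₑ ^ p.toReal)
      (fun j => ?_) (fun j => ?_) ?_ ?_
    · exact ((Lp.aestronglyMeasurable (a j)).sub hgm).enorm.pow_const _
    · filter_upwards [ha j, hfb j, hgb] with x h1 h2 h3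
      refine ENNReal.rpow_le_rpow ?_ hr.le
      rw [enorm_le_iff_norm_le, Pi.sub_apply, h1]
      refine (norm_sub_le _ _).trans ?_
      refine le_trans ?_ (le_abs_self _)
      linarith
    · exact (lintegral_rpow_enorm_lt_top_of_eLpNorm_lt_top hp0 hp h2b.2).ne
    · filter_upwards [ae_all_iff.2 ha, hlim] with x h1 h2
      have h3 : Tendsto (fun j => ‖((a j : X → Y) - g) x‖ₑ) atTop (𝓝 0) := by
        simp only [Pi.sub_apply, h1]
        have h4 := (h2.sub_const (g x)).enorm
        simpa using h4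
      have h5 := (ENNReal.continuous_rpow_const (y := p.toReal)).tendsto 0
      rw [ENNReal.zero_rpow_of_pos hr] at h5
      exact h5.comp h3
  rw [lintegral_zero] at key
  have h5 := (ENNReal.continuous_rpow_const (y := 1 / p.toReal)).tendsto 0
  rw [ENNReal.zero_rpow_of_pos (by positivity)] at h5
  exact h5.comp key

/-- weighted composition keeps `L^p` -/
theorem memLp_wc {w : X → ℝ} (hw : Measurable w) {C : ℝ} (hC : ∀ x, |w x| ≤ C) {σ : X → X}
    (hσ : MeasurePreserving σ μ μ) {f : X → Y} (hf : MemLp f p μ) :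
    MemLp (fun x => (w x : 𝕜) • f (σ x)) p μ := by
  have h1 : MemLp (f ∘ σ) p μ := hf.comp_measurePreserving hσ
  refine MemLp.of_le_mul (c := C) h1 ?_ (Eventually.of_forall fun x => ?_)
  · exact (RCLike.continuous_ofReal.comp_aestronglyMeasurable hw.aestronglyMeasurable).smul h1.1
  · rw [norm_smul, RCLike.norm_ofReal]
    exact mul_le_mul_of_nonneg_right (hC x) (norm_nonneg _)

/-- the weighted composition operator -/
theorem exists_wc [Fact (1 ≤ p)] {w : X → ℝ} (hw : Measurable w) {C : ℝ} (hC0 : 0 ≤ C)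
    (hC : ∀ x, |w x| ≤ C) {σ : X → X} (hσ : MeasurePreserving σ μ μ) :
    ∃ A : Lp Y p μ →L[𝕜] Lp Y p μ, ‖A‖ ≤ C ∧
      ∀ ξ : Lp Y p μ, (A ξ : X → Y) =ᵐ[μ] fun x => (w x : 𝕜) • (ξ : X → Y) (σ x) := by
  have hm : ∀ ξ : Lp Y p μ, MemLp (fun x => (w x : 𝕜) • (ξ : X → Y) (σ x)) p μ :=
    fun ξ => memLp_wc hw hC hσ (Lp.memLp ξ)
  have hq := hσ.quasiMeasurePreserving
  let L : Lp Y p μ →ₗ[𝕜] Lp Y p μ :=
    { toFun := fun ξ => (hm ξ).toLp _
      map_add' := by
        intro ξ η
        refine Lp.ext ?_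
        filter_upwards [(hm (ξ + η)).coeFn_toLp, (hm ξ).coeFn_toLp, (hm η).coeFn_toLp,
          hq.ae (Lp.coeFn_add ξ η), Lp.coeFn_add ((hm ξ).toLp _) ((hm η).toLp _)]
          with x h1 h2 h3 h4 h5
        rw [h1, h5, Pi.add_apply, h2, h3, h4, Pi.add_apply, smul_add]
      map_smul' := by
        intro c ξ
        refine Lp.ext ?_
        filter_upwards [(hm (c • ξ)).coeFn_toLp, (hm ξ).coeFn_toLp,
          hq.ae (Lp.coeFn_smul c ξ), Lp.coeFn_smul c ((hm ξ).toLp _)] with x h1 h2 h3 h4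
        simp only [RingHom.id_apply]
        rw [h1, h4, Pi.smul_apply, h2, h3, Pi.smul_apply, smul_comm] }
  have hb : ∀ ξ, ‖L ξ‖ ≤ C * ‖ξ‖ := by
    intro ξ
    rw [← Lp.norm_compMeasurePreserving ξ hσ]
    refine Lp.norm_le_mul_norm_of_ae_le_mul ?_
    filter_upwards [(hm ξ).coeFn_toLp, Lp.coeFn_compMeasurePreserving ξ hσ] with x h1 h2
    have h3 : ((L ξ : Lp Y p μ) : X → Y) x = (w x : 𝕜) • (ξ : X → Y) (σ x) := h1
    rw [h3, h2, norm_smul, RCLike.norm_ofReal]
    exact mul_le_mul_of_nonneg_right (hC x) (norm_nonneg _)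
  exact ⟨L.mkContinuous C hb, L.mkContinuous_norm_le hC0 hb, fun ξ => (hm ξ).coeFn_toLp⟩

/-- conditions `f x ∈ K` a.e. with `K` closed are closed in `L^p` -/
theorem isClosed_ae_mem [Fact (1 ≤ p)] {K : Set Y} (hK : IsClosed K) :
    IsClosed {f : Lp Y p μ | ∀ᵐ x ∂μ, (f : X → Y) x ∈ K} := by
  refine IsSeqClosed.isClosed fun f g hf hlim => ?_
  obtain ⟨φ, -, hφ⟩ := (tendstoInMeasure_of_tendsto_Lp hlim).exists_seq_tendsto_ae
  have hf' : ∀ᵐ x ∂μ, ∀ j, (f j : X → Y) x ∈ K := ae_all_iff.2 hf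
  filter_upwards [hf', hφ] with x h1 h2
  exact hK.mem_of_tendsto h2 (Eventually.of_forall fun j => h1 _)

/-- disjoint countable pieces -/
theorem FM.iUnion [Fact (1 ≤ p)] (hp : p ≠ ∞) (hM : IsClosed (M : Set (Lp Y p μ)))
    {g : X → Y} (hg : MemLp g p μ) {S : ℕ → Set X} (hd : Pairwise (Function.onFun Disjoint S))
    (hS : ∀ j, FM M ((S j).indicator g)) : FM M ((⋃ j, S j).indicator g) := by
  classical
  have hsum : ∀ (N : ℕ) (x : X), ∑ j ∈ Finset.range N, (S j).indicator g x =
      (⋃ j ∈ Finset.range N, S j).indicator g x := by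
    intro N x
    rw [Finset.indicator_biUnion_apply]
    intro i _ j _ hij
    exact hd hij
  refine FM.lim hp hM hg.norm (f := fun N x => ∑ j ∈ Finset.range N, (S j).indicator g x)
    (fun N => FM.sum _ fun j _ => hS j) (fun N => Eventually.of_forall fun x => ?_)
    (Eventually.of_forall fun x => ?_)
  · rw [hsum]
    exact norm_indicator_le_norm_self _ _
  · by_cases hx : x ∈ ⋃ j, S j
    · obtain ⟨j, hj⟩ := Set.mem_iUnion.1 hx
      rw [Set.indicator_of_mem hx]
      refine tendsto_const_nhds.congr' ?_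
      filter_upwards [eventually_gt_atTop j] with N hN
      rw [hsum, Set.indicator_of_mem]
      exact Set.mem_iUnion₂.2 ⟨j, Finset.mem_range.2 hN, hj⟩
    · rw [Set.indicator_of_notMem hx]
      refine tendsto_const_nhds.congr fun N => ?_
      rw [hsum, Set.indicator_of_notMem]
      intro h
      obtain ⟨j, -, hj⟩ := Set.mem_iUnion₂.1 h
      exact hx (Set.mem_iUnion.2 ⟨j, hj⟩)

/-- invariance under one injective monotone multiplier gives invariance under all indicators -/
theorem FM.cut_of_mul [Fact (1 ≤ p)] (hp : p ≠ ∞) (hM : IsClosed (M : Set (Lp Y p μ)))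
    {τ : X → ℝ} {φ : ℝ → ℝ} (hφ : StrictMono φ) (hφ0 : ∀ t, 0 ≤ φ t) (hφ1 : ∀ t, φ t ≤ 1)
    (hmul : ∀ f, FM M f → FM M (fun x => (φ (τ x) : 𝕜) • f x))
    {S : Set ℝ} (hS : MeasurableSet S) {f : X → Y} (hf : FM M f) :
    FM M ((τ ⁻¹' S).indicator f) := by
  have hpoly : ∀ P : Polynomial ℝ, FM M (fun x => ((P.eval (φ (τ x)) : ℝ) : 𝕜) • f x) := by
    intro P
    induction P using Polynomial.induction_on with
    | C a => simpa using hf.smul (a : 𝕜)
    | add P Q h1 h2 =>
      refine (h1.add h2).congr (Eventually.of_forall fun x => ?_)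
      simp [add_smul]
    | monomial n a h =>
      refine (hmul _ h).congr (Eventually.of_forall fun x => ?_)
      simp only [Polynomial.eval_mul, Polynomial.eval_C, Polynomial.eval_pow, Polynomial.eval_X,
        smul_smul]
      congr 1
      push_cast
      ring
  have hIic : ∀ a : ℝ, FM M ((τ ⁻¹' Set.Iic a).indicator f) := by
    intro a
    let u : ℕ → ℝ → ℝ := fun j y => max 0 (min 1 (1 - j * (y - φ a)))
    have hu : ∀ j, Continuous (u j) := fun j => by
      simp only [u]
      fun_prop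
    have hu0 : ∀ j y, 0 ≤ u j y := fun j y => le_max_left _ _
    have hu1 : ∀ j y, u j y ≤ 1 := fun j y => max_le zero_le_one (min_le_left _ _)
    choose P hP using fun j : ℕ => exists_polynomial_near_of_continuousOn 0 1 (u j)
      (hu j).continuousOn (1 / ((j : ℝ) + 1)) Nat.one_div_pos_of_nat
    have hP' : ∀ j t, |(P j).eval (φ t) - u j (φ t)| < 1 / ((j : ℝ) + 1) :=
      fun j t => hP j _ ⟨hφ0 t, hφ1 t⟩
    refine FM.lim hp hM (hf.memLp.norm.const_mul 2) (fun j => hpoly (P j))
      (fun j => Eventually.of_forall fun x => ?_) (Eventually.of_forall fun x => ?_)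
    · rw [norm_smul, RCLike.norm_ofReal]
      refine mul_le_mul_of_nonneg_right ?_ (norm_nonneg _)
      have h1 := abs_lt.1 (hP' j (τ x))
      have h2 : 1 / ((j : ℝ) + 1) ≤ 1 := by
        rw [div_le_one (by positivity)]
        linarith [Nat.cast_nonneg (α := ℝ) j]
      have h3 := hu0 j (φ (τ x))
      have h4 := hu1 j (φ (τ x))
      rw [abs_le]
      constructor <;> linarith [h1.1, h1.2]
    · have h0 : Tendsto (fun j => (P j).eval (φ (τ x)) - u j (φ (τ x))) atTop (𝓝 0) :=
        squeeze_zero_norm (fun j => (hP' j (τ x)).le) tendsto_one_div_add_atTop_nhds_zero_nat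
      have h1 : ∀ r : ℝ, Tendsto (fun j => u j (φ (τ x))) atTop (𝓝 r) →
          Tendsto (fun j => (((P j).eval (φ (τ x)) : ℝ) : 𝕜) • f x) atTop (𝓝 ((r : 𝕜) • f x)) := by
        intro r hr
        have h2 := h0.add hr
        simp only [sub_add_cancel, zero_add] at h2
        exact ((RCLike.continuous_ofReal.tendsto r).comp h2).smul_const (f x)
      by_cases hx : τ x ≤ a
      · rw [Set.indicator_of_mem (show x ∈ τ ⁻¹' Set.Iic a from hx)]
        have h3 := h1 1 (tendsto_const_nhds.congr fun j => ?_)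
        · simpa using h3
        · have h4 : φ (τ x) - φ a ≤ 0 := sub_nonpos.2 (hφ.monotone hx)
          have h5 : (j : ℝ) * (φ (τ x) - φ a) ≤ 0 :=
            mul_nonpos_of_nonneg_of_nonpos (Nat.cast_nonneg j) h4
          simp only [u]
          rw [min_eq_left (by linarith), max_eq_right zero_le_one]
      · rw [Set.indicator_of_notMem (show x ∉ τ ⁻¹' Set.Iic a from hx)]
        have h3 := h1 0 (tendsto_const_nhds.congr' ?_)
        · simpa using h3
        · have h4 : 0 < φ (τ x) - φ a := sub_pos.2 (hφ (not_le.1 hx))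
          obtain ⟨N, hN⟩ := exists_nat_ge (1 / (φ (τ x) - φ a))
          filter_upwards [eventually_ge_atTop N] with j hj
          have h5 : (N : ℝ) ≤ j := by exact_mod_cast hj
          rw [div_le_iff₀ h4] at hN
          have h6 : 1 ≤ (j : ℝ) * (φ (τ x) - φ a) :=
            hN.trans (mul_le_mul_of_nonneg_right h5 h4.le)
          simp only [u]
          rw [max_eq_left]
          exact (min_le_right _ _).trans (by linarith)
  induction S, hS using MeasurableSpace.induction_on_inter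
    (BorelSpace.measurable_eq.trans (borel_eq_generateFrom_Iic ℝ)) isPiSystem_Iic with
  | empty => simpa using FM.zero
  | basic S hS =>
    obtain ⟨a, rfl⟩ := hS
    exact hIic a
  | compl S _ h =>
    refine (hf.sub h).congr (Eventually.of_forall fun x => ?_)
    by_cases hx : τ x ∈ S <;> simp [hx]
  | iUnion S hd _ h =>
    rw [Set.preimage_iUnion]
    exact FM.iUnion hp hM hf.memLp (fun i j hij => (hd hij).preimage τ) h

end Vale.Agent.N131L
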