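import Vale.Agent.P131.H856.Quasi
import Vale.Agent.N131L.Fn

/-!
The weighted translations on functions on `ℝ × ℤ`, and the Hilbert space core of the argument
for an arbitrary subspace invariant under the few operators that are really used.
-/

namespace Vale.Agent.N131L

open MeasureTheory Filter Topology Vale.Agent.P131
open scoped ENNReal

variable {𝕜 : Type*} [RCLike 𝕜] {Y : Type*} [NormedAddCommGroup Y] [NormedSpace 𝕜 Y] {p : ℝ≥0∞}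

/-- the weight of the translation by `(s, k)` -/
noncomputable def ww (s : ℝ) (k : ℤ) (q : ℝ × ℤ) : ℝ :=
  Real.exp (hp q.1 q.2 - hp (q.1 - s) (q.2 - k))

variable (𝕜) in
/-- the weighted translation by `(s, k)` -/
noncomputable def sh (s : ℝ) (k : ℤ) (f : ℝ × ℤ → Y) : ℝ × ℤ → Y :=
  fun q => (ww s k q : 𝕜) • f (q.1 - s, q.2 - k)

/-- cutting in the first variable -/
noncomputable def ct (S : Set ℝ) (f : ℝ × ℤ → Y) : ℝ × ℤ → Y := (Prod.fst ⁻¹' S).indicator f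

theorem ww_pos (s : ℝ) (k : ℤ) (q : ℝ × ℤ) : 0 < ww s k q := Real.exp_pos _

theorem ww_measurable (s : ℝ) (k : ℤ) : Measurable (ww s k) := by
  refine measurable_from_prod_countable_left fun n => ?_
  exact Real.measurable_exp.comp ((hp_measurable n).sub
    ((hp_measurable (n - k)).comp (measurable_id.sub_const s)))

theorem sh_sh (s s' : ℝ) (k k' : ℤ) (f : ℝ × ℤ → Y) :
    sh 𝕜 s k (sh 𝕜 s' k' f) = sh 𝕜 (s + s') (k + k') f := by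
  funext q
  simp only [sh, ww, smul_smul, sub_sub]
  rw [← RCLike.ofReal_mul, ← Real.exp_add]
  congr 3
  ring

theorem sh_zero (f : ℝ × ℤ → Y) : sh 𝕜 0 0 f = f := by
  funext q
  simp [sh, ww]

theorem sh_congr (s : ℝ) (k : ℤ) {f g : ℝ × ℤ → Y} (h : f =ᵐ[mu] g) :
    sh 𝕜 s k f =ᵐ[mu] sh 𝕜 s k g := by
  filter_upwards [(mp_shift s k).quasiMeasurePreserving.ae h] with q hq
  simp only [sh]
  rw [hq]

theorem ct_congr (S : Set ℝ) {f g : ℝ × ℤ → Y} (h : f =ᵐ[mu] g) : ct S f =ᵐ[mu] ct S g := by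
  filter_upwards [h] with q hq
  simp only [ct, Set.indicator]
  rw [hq]

theorem ct_of_mem {S : Set ℝ} (f : ℝ × ℤ → Y) {q : ℝ × ℤ} (h : q.1 ∈ S) : ct S f q = f q :=
  Set.indicator_of_mem (s := Prod.fst ⁻¹' S) h f

theorem ct_of_notMem {S : Set ℝ} (f : ℝ × ℤ → Y) {q : ℝ × ℤ} (h : q.1 ∉ S) : ct S f q = 0 :=
  Set.indicator_of_notMem (s := Prod.fst ⁻¹' S) h f

theorem ct_univ (f : ℝ × ℤ → Y) : ct Set.univ f = f := by
  funext q
  exact ct_of_mem f (Set.mem_univ _)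

/-- the distinguished translation -/
noncomputable def kc : ℝ := exists_shift.choose

/-- the set on which the distinguished translation lowers the level -/
def kE : Set ℝ := {t | t - kc ∈ exists_shift.choose_spec.choose}

theorem key_spec : MeasurableSet kE ∧ 0 < volume {t : ℝ | t + kc ∈ kE} ∧
    ∃ C : ℝ, ∀ t ∈ kE, ∀ n : ℤ, hp t n - hp (t - kc) (n - (-1)) ≤ C := by
  obtain ⟨C, hE, hE0, hEC⟩ := exists_shift.choose_spec.choose_spec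
  refine ⟨hE.preimage (measurable_id.sub_const kc), ?_, C, fun t ht n => ?_⟩
  · simpa [kE] using hE0
  · have := hEC (t - kc) ht n
    change hp (t - kc + kc) n - _ ≤ C at this
    rw [sub_add_cancel] at this
    rwa [sub_neg_eq_add]

/-- invariance under cuts, dyadic translations, the shift and the distinguished translation -/
structure Good (M : Submodule 𝕜 (Lp Y p mu)) : Prop where
  cut : ∀ S, MeasurableSet S → ∀ f, FM M f → FM M (ct S f)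
  dy : ∀ (k : ℤ) (N : ℕ) f, FM M f → FM M (sh 𝕜 ((k : ℝ) / 2 ^ N) 0 f)
  up : ∀ f, FM M f → FM M (sh 𝕜 0 1 f)
  key : ∀ f, FM M f → FM M (ct kE (sh 𝕜 kc (-1) f))

theorem Good.pow {M : Submodule 𝕜 (Lp Y p mu)} (h : Good M) (m : ℕ) {f : ℝ × ℤ → Y}
    (hf : FM M f) : FM M (sh 𝕜 0 m f) := by
  induction m with
  | zero => rwa [Nat.cast_zero, sh_zero]
  | succ m ih =>
    have := h.up _ ih
    rw [sh_sh, add_zero] at this
    rwa [Nat.cast_succ, add_comm]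

theorem fm_fiber {M : Submodule ℂ Hs} {S : Set ℝ} {s : ℝ} {k : ℤ} {f : ℝ × ℤ → ℂ}
    (h : FM M (ct S (sh ℂ s k f))) : ∃ ζ ∈ M, ∀ᵐ t : ℝ, ∀ n : ℤ, (ζ : ℝ × ℤ → ℂ) (t, n) =
      S.indicator (fun _ => (1 : ℂ)) t * (Real.exp (hp t n - hp (t - s) (n - k)) : ℂ) *
        f (t - s, n - k) := by
  obtain ⟨ζ, hζ, h1⟩ := h
  refine ⟨ζ, hζ, ?_⟩
  filter_upwards [ae_mu_iff h1] with t ht n
  rw [ht n]
  by_cases hS : t ∈ S
  · rw [ct_of_mem _ hS, Set.indicator_of_mem hS, one_mul]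
    rfl
  · rw [ct_of_notMem _ hS, Set.indicator_of_notMem hS, zero_mul, zero_mul]

theorem core_sep {M : Submodule ℂ Hs} (hG : Good M) {ξ η : Hs} (hξ : ξ ∈ M) (hη : η ∈ Mᗮ) :
    ∀ᵐ t : ℝ, ∀ i j : ℤ, (ξ : ℝ × ℤ → ℂ) (t, i) ≠ 0 → (η : ℝ × ℤ → ℂ) (t, j) ≠ 0 → j < i := by
  have h1 : ∀ m : ℕ, ∀ᵐ t : ℝ, ∑' k : ℤ, (Real.exp (hp t (k + m) - hp t k) : ℂ) *
      ((ξ : ℝ × ℤ → ℂ) (t, k) * (starRingEnd ℂ) ((η : ℝ × ℤ → ℂ) (t, k + m))) = 0 := by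
    intro m
    apply fiber_orth hp ξ η m
    intro S hS
    obtain ⟨ζ, hζM, hζ⟩ := fm_fiber (hG.cut S hS _ (hG.pow m (FM.of_mem hξ)))
    refine ⟨ζ, (Submodule.mem_orthogonal' M η).mp hη ζ hζM, ?_⟩
    filter_upwards [hζ] with t ht n
    rw [ht n, sub_zero]
  obtain ⟨c, hc, hg⟩ := dr_growth
  filter_upwards [ae_all_iff.mpr h1, fiber_summable ξ, fiber_summable η] with t ht hu hv i j hi hj
  have hv' : Summable fun k : ℤ => ‖(starRingEnd ℂ) ((η : ℝ × ℤ → ℂ) (t, k))‖ ^ 2 := by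
    simpa using hv
  exact unicell hc (dr_mono t) (dl_mono t) (dr_le_dl t) (hg t)
    (u := fun k => (ξ : ℝ × ℤ → ℂ) (t, k))
    (v := fun k => (starRingEnd ℂ) ((η : ℝ × ℤ → ℂ) (t, k))) hu hv' ht hi (by simpa using hj)

/-- a nonzero good subspace of the Hilbert space is dense -/
theorem core {M : Submodule ℂ Hs} (hG : Good M) (hbot : M ≠ ⊥) : Mᗮ = ⊥ := by
  by_contra hperp
  obtain ⟨η, hη, hη0⟩ := Submodule.exists_mem_ne_zero_of_ne_bot hperp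
  obtain ⟨ξ₀, hξ₀, hξ₀0⟩ := Submodule.exists_mem_ne_zero_of_ne_bot hbot
  obtain ⟨j₀, hj₀⟩ := exists_ne η hη0
  have hmove : ∀ (ξ : Hs), ξ ∈ M → ∀ i : ℤ, 0 < volume {t : ℝ | (ξ : ℝ × ℤ → ℂ) (t, i) ≠ 0} →
      ∀ V : Set ℝ, MeasurableSet V → 0 < volume V →
      ∃ ζ ∈ M, 0 < volume ({t : ℝ | (ζ : ℝ × ℤ → ℂ) (t, i) ≠ 0} ∩ V) := by
    intro ξ hξ i hi V hV hV0
    obtain ⟨k, N, hkN⟩ := exists_dyadic _ V (measurable_ne ξ i) hV hi hV0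
    obtain ⟨ζ, hζM, hζ⟩ := fm_fiber (hG.cut _ MeasurableSet.univ _ (hG.dy k N _ (FM.of_mem hξ)))
    refine ⟨ζ, hζM, lt_of_lt_of_le hkN (measure_mono_ae ?_)⟩
    filter_upwards [hζ] with t ht htm
    refine ⟨?_, htm.2⟩
    have h1 : (ξ : ℝ × ℤ → ℂ) (t - (k : ℝ) / 2 ^ N, i) ≠ 0 := htm.1
    show (ζ : ℝ × ℤ → ℂ) (t, i) ≠ 0
    rw [ht i, sub_zero]
    simpa using h1
  have hlow : ∀ i : ℤ, (∃ ξ ∈ M, 0 < volume {t : ℝ | (ξ : ℝ × ℤ → ℂ) (t, i) ≠ 0}) → j₀ < i := by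
    rintro i ⟨ξ, hξ, hi⟩
    obtain ⟨ζ, hζM, hζ⟩ := hmove ξ hξ i hi _ (measurable_ne η j₀) hj₀
    by_contra hji
    have h1 : volume ({t : ℝ | (ζ : ℝ × ℤ → ℂ) (t, i) ≠ 0} ∩
        {t : ℝ | (η : ℝ × ℤ → ℂ) (t, j₀) ≠ 0}) = 0 := by
      apply measure_mono_null _ (ae_iff.mp (core_sep hG hζM hη))
      rintro t ⟨ht1, ht2⟩ hall
      exact hji (hall i j₀ ht1 ht2)
    exact hζ.ne' h1
  obtain ⟨i₁, hi₁, hmin⟩ := Int.exists_least_of_bdd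
    (P := fun i => ∃ ξ ∈ M, 0 < volume {t : ℝ | (ξ : ℝ × ℤ → ℂ) (t, i) ≠ 0})
    ⟨j₀, fun i hi => (hlow i hi).le⟩
    (by
      obtain ⟨i, hi⟩ := exists_ne ξ₀ hξ₀0
      exact ⟨i, ξ₀, hξ₀, hi⟩)
  obtain ⟨ξ, hξ, hi⟩ := hi₁
  obtain ⟨hS, hE0, -⟩ := key_spec
  have hE : MeasurableSet {t : ℝ | t + kc ∈ kE} := hS.preimage (measurable_id.add_const kc)
  obtain ⟨ζ, hζM, hζ⟩ := hmove ξ hξ i₁ hi _ hE hE0
  obtain ⟨ω, hωM, hω⟩ := fm_fiber (hG.key _ (FM.of_mem hζM))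
  have hω0 : 0 < volume {t : ℝ | (ω : ℝ × ℤ → ℂ) (t, i₁ - 1) ≠ 0} := by
    have h1 : volume ((fun t : ℝ => t - kc) ⁻¹'
        ({t : ℝ | (ζ : ℝ × ℤ → ℂ) (t, i₁) ≠ 0} ∩ {t : ℝ | t + kc ∈ kE})) =
        volume ({t : ℝ | (ζ : ℝ × ℤ → ℂ) (t, i₁) ≠ 0} ∩ {t : ℝ | t + kc ∈ kE}) := by
      simp only [sub_eq_add_neg]
      exact measure_preimage_add_right volume (-kc) _
    rw [← h1] at hζ
    refine lt_of_lt_of_le hζ (measure_mono_ae ?_)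
    filter_upwards [hω] with t ht htm
    have h2 : (ζ : ℝ × ℤ → ℂ) (t - kc, i₁) ≠ 0 := htm.1
    have h3 : t ∈ kE := by
      have h4 : t - kc + kc ∈ kE := htm.2
      rwa [sub_add_cancel] at h4
    show (ω : ℝ × ℤ → ℂ) (t, i₁ - 1) ≠ 0
    rw [ht (i₁ - 1), Set.indicator_of_mem h3, sub_neg_eq_add, sub_add_cancel]
    simpa using h2
  have := hmin (i₁ - 1) ⟨ω, hωM, hω0⟩
  omega

end Vale.Agent.N131L
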