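import Mathlib.MeasureTheory.Function.LpSpace.Basic
import Mathlib.MeasureTheory.Measure.Haar.OfBasis
import Mathlib.Analysis.SpecialFunctions.Pow.Real
import Mathlib.Analysis.RCLike.Basic

/-! Definitions for the statement. -/

namespace Vale.Agent.N131L

open Filter Topology MeasureTheory
open scoped ENNReal

variable {𝕜 : Type*} [RCLike 𝕜] {E : Type*} [NormedAddCommGroup E] [NormedSpace 𝕜 E]

/-- `0` and `E` are the only closed subspaces invariant under every operator of the set `𝒮`. -/
def Transitive (𝒮 : Set (E →L[𝕜] E)) : Prop :=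
  ∀ M : Submodule 𝕜 E, IsClosed (M : Set E) → (∀ A ∈ 𝒮, ∀ x ∈ M, A x ∈ M) → M = ⊥ ∨ M = ⊤

/-- The bounded operators commuting with `T`. -/
def commutant (T : E →L[𝕜] E) : Set (E →L[𝕜] E) := {A | A * T = T * A}

/-- `‖T ^ n‖ ^ (1 / n) → 0`. -/
def Quasinilpotent (T : E →L[𝕜] E) : Prop :=
  Tendsto (fun n : ℕ => ‖T ^ n‖ ^ (1 / n : ℝ)) atTop (𝓝 0)

variable (𝕜 E) in
/-- Some nonzero quasinilpotent operator on `E` has a transitive commutant. -/
def HasCounterexample : Prop :=
  ∃ T : E →L[𝕜] E, T ≠ 0 ∧ Quasinilpotent T ∧ Transitive (commutant T)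

variable (𝕜) in
/-- There are a nonzero quasinilpotent operator `T` and two operators `S`, `A` commuting with it
such that the pair `{S, A}` is transitive and all three operators map `K` into `K`. -/
def HasPositivePair (K : Set E) : Prop :=
  ∃ T S A : E →L[𝕜] E, T ≠ 0 ∧ Quasinilpotent T ∧ S ∈ commutant T ∧ A ∈ commutant T ∧
    Transitive {S, A} ∧ Set.MapsTo T K K ∧ Set.MapsTo S K K ∧ Set.MapsTo A K K

/-- The function has nonnegative real values almost everywhere. -/
def AENonneg (f : ℝ → 𝕜) : Prop := ∀ᵐ x : ℝ, 0 ≤ RCLike.re (f x) ∧ RCLike.im (f x) = 0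

end Vale.Agent.N131L
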