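import Vale.Agent.N131L.Red
import Mathlib.Analysis.SpecialFunctions.Sigmoid

/-!
The shift `T`, and two operators commuting with it whose common invariant subspaces are good.
-/

namespace Vale.Agent.N131L

open MeasureTheory Filter Topology Vale.Agent.P131
open scoped ENNReal

variable {𝕜 : Type*} [RCLike 𝕜] {Y : Type*} [NormedAddCommGroup Y] [NormedSpace 𝕜 Y] {p : ℝ≥0∞}

variable (𝕜) in
/-- closed convex cones -/
def Cone (K : Set Y) : Prop :=
  IsClosed K ∧ 0 ∈ K ∧ (∀ a ∈ K, ∀ b ∈ K, a + b ∈ K) ∧ ∀ r : ℝ, 0 ≤ r → ∀ a ∈ K, (r : 𝕜) • a ∈ K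

theorem sh_ct (S : Set ℝ) (k : ℤ) (f : ℝ × ℤ → Y) : sh 𝕜 0 k (ct S f) = ct S (sh 𝕜 0 k f) := by
  funext q
  by_cases h : q.1 ∈ S
  · rw [ct_of_mem _ h, sh, sh, ct_of_mem _ (by simpa using h)]
  · rw [ct_of_notMem _ h, sh, ct_of_notMem _ (by simpa using h), smul_zero]

variable [Fact (1 ≤ p)]

/-- the operator preserves the `K`-valued functions -/
def Pres {X : Type*} [MeasurableSpace X] {μ : Measure X} (K : Set Y)
    (A : Lp Y p μ →L[𝕜] Lp Y p μ) : Prop :=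
  ∀ f : Lp Y p μ, (∀ᵐ x ∂μ, (f : X → Y) x ∈ K) → ∀ᵐ x ∂μ, (A f : X → Y) x ∈ K

/-- the operator is given by the weighted translation -/
def IsOp (S : Set ℝ) (s : ℝ) (k : ℤ) (A : Lp Y p mu →L[𝕜] Lp Y p mu) : Prop :=
  ∀ ξ : Lp Y p mu, (A ξ : ℝ × ℤ → Y) =ᵐ[mu] ct S (sh 𝕜 s k ξ)

theorem IsOp.comm {S : Set ℝ} {s : ℝ} {k : ℤ} {A T : Lp Y p mu →L[𝕜] Lp Y p mu}
    (hA : IsOp S s k A) (hT : IsOp Set.univ 0 1 T) : Commute A T := by
  refine ContinuousLinearMap.ext fun ξ => Lp.ext ?_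
  have h1 := (hA (T ξ)).trans (ct_congr S (sh_congr s k (hT ξ)))
  have h2 := (hT (A ξ)).trans (ct_congr _ (sh_congr 0 1 (hA ξ)))
  rw [ct_univ, sh_sh, add_zero] at h1
  rw [ct_univ, sh_ct, sh_sh, zero_add, add_comm] at h2
  exact h1.trans h2.symm

theorem IsOp.pres {S : Set ℝ} {s : ℝ} {k : ℤ} {A : Lp Y p mu →L[𝕜] Lp Y p mu}
    (hA : IsOp S s k A) {K : Set Y} (hK : Cone 𝕜 K) : Pres K A := by
  intro f hf
  filter_upwards [hA f, (mp_shift s k).quasiMeasurePreserving.ae hf] with x h1 h2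
  rw [h1, ct_sh_eq]
  exact hK.2.2.2 _ (ct_ww_nonneg _ _ _ _) _ h2

theorem IsOp.fm {S : Set ℝ} {s : ℝ} {k : ℤ} {A : Lp Y p mu →L[𝕜] Lp Y p mu}
    (hA : IsOp S s k A) {M : Submodule 𝕜 (Lp Y p mu)} (hM : ∀ x ∈ M, A x ∈ M)
    (f : ℝ × ℤ → Y) (hf : FM M f) : FM M (ct S (sh 𝕜 s k f)) := by
  obtain ⟨a, ha, h⟩ := hf
  exact ⟨A a, hM a ha, (hA a).trans (ct_congr S (sh_congr s k h))⟩

theorem IsOp.pow {T : Lp Y p mu →L[𝕜] Lp Y p mu} (hT : IsOp Set.univ 0 1 T) (m : ℕ) :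
    IsOp Set.univ 0 m (T ^ m) := by
  induction m with
  | zero =>
    intro ξ
    rw [Nat.cast_zero, sh_zero, ct_univ, pow_zero]
    exact EventuallyEq.rfl
  | succ m ih =>
    intro ξ
    have h1 := (hT ((T ^ m) ξ)).trans (ct_congr _ (sh_congr 0 1 (ih ξ)))
    rw [ct_univ, ct_univ, sh_sh, add_zero, add_comm] at h1
    rw [pow_succ', ct_univ, Nat.cast_succ]
    exact h1

theorem IsOp.qn {T : Lp Y p mu →L[𝕜] Lp Y p mu} (hT : IsOp Set.univ 0 1 T) {L : ℝ} (hL : 0 ≤ L) :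
    ∃ K : ℝ, ∀ m : ℕ, ‖T ^ m‖ ≤ Real.exp (K - L * m) := by
  obtain ⟨K, hK⟩ := H856.hp_drop hL
  refine ⟨K, fun m => ?_⟩
  obtain ⟨B, h1, h2⟩ := Bd.exists_op 𝕜 Y p (S := Set.univ) (s := 0) (k := m) (C := K - L * m)
    ⟨MeasurableSet.univ, fun t _ n => by rw [sub_zero]; exact hK t n m⟩
  rwa [show T ^ m = B from ContinuousLinearMap.ext fun ξ =>
    Lp.ext ((hT.pow m ξ).trans (h2 ξ).symm)]

theorem IsOp.ne_zero [Nontrivial Y] {T : Lp Y p mu →L[𝕜] Lp Y p mu}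
    (hT : IsOp Set.univ 0 1 T) : T ≠ 0 := by
  rintro rfl
  obtain ⟨y, hy⟩ := exists_ne (0 : Y)
  have hs : MeasurableSet (Set.Icc (0 : ℝ) 1 ×ˢ ({0} : Set ℤ)) :=
    measurableSet_Icc.prod (measurableSet_singleton 0)
  have hμ : mu (Set.Icc (0 : ℝ) 1 ×ˢ ({0} : Set ℤ)) ≠ ∞ := by
    rw [mu_prod]
    exact measure_Icc_lt_top.ne
  have h1 := (Lp.coeFn_zero Y p mu).symm.trans ((hT (indicatorConstLp p hs hμ y)).trans
    (ct_congr _ (sh_congr 0 1 indicatorConstLp_coeFn)))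
  have h3 : ∀ᵐ t : ℝ, t ∉ Set.Icc (0 : ℝ) 1 := by
    filter_upwards [ae_mu_iff h1] with t ht h
    have e1 := ht 1
    rw [ct_univ, sh, Set.indicator_of_mem (by simpa using h), Pi.zero_apply, eq_comm,
      smul_eq_zero] at e1
    rcases e1 with e1 | e1
    · exact (ww_pos _ _ _).ne' (RCLike.ofReal_eq_zero.1 e1)
    · exact hy e1
  have h4 : volume (Set.Icc (0 : ℝ) 1) = 0 := measure_eq_zero_iff_ae_notMem.2 h3
  simp at h4

theorem good_of_comm {T : Lp Y p mu →L[𝕜] Lp Y p mu} (hT : IsOp Set.univ 0 1 T)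
    {M : Submodule 𝕜 (Lp Y p mu)} (hM : ∀ A, Commute A T → ∀ x ∈ M, A x ∈ M) : Good M := by
  have h : ∀ {S s k C}, Bd S s k C → ∀ f, FM M f → FM M (ct S (sh 𝕜 s k f)) := by
    intro S s k C hb
    obtain ⟨A, -, hA⟩ := hb.exists_op 𝕜 Y p
    exact IsOp.fm hA (hM A (IsOp.comm hA hT))
  refine ⟨fun S hS f hf => ?_, fun k N f hf => ?_, fun f hf => ?_, fun f hf => ?_⟩
  · simpa only [sh_zero] using h (bd_up hS le_rfl) f hf
  · obtain ⟨C, hC⟩ := bd_dy k N le_rfl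
    simpa only [ct_univ] using h hC f hf
  · simpa only [ct_univ] using h (bd_up MeasurableSet.univ zero_le_one) f hf
  · obtain ⟨C, hC⟩ := bd_key
    exact h hC f hf

/-- one operator that contains countably many weighted translations with separated shifts -/
theorem exists_sum [CompleteSpace Y] (hq : p ≠ ∞) {S : ℕ → Set ℝ} {s : ℕ → ℝ} {k : ℕ → ℤ}
    (hb : ∀ j, ∃ C, Bd (S j) (s j) (k j) C) (hsep : ∀ i j, i ≠ j → 1 ≤ |s i - s j|) :
    ∃ A : Lp Y p mu →L[𝕜] Lp Y p mu, (∀ T, IsOp Set.univ 0 1 T → Commute A T) ∧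
      (∀ K, Cone 𝕜 K → Pres K A) ∧
      ∀ M : Submodule 𝕜 (Lp Y p mu), IsClosed (M : Set (Lp Y p mu)) → (∀ x ∈ M, A x ∈ M) →
        (∀ I, MeasurableSet I → ∀ f, FM M f → FM M (ct I f)) →
        ∀ j f, FM M f → FM M (ct (S j) (sh 𝕜 (s j) (k j) f)) := by
  choose C hC using hb
  choose B hB1 hB using fun j => (hC j).exists_op 𝕜 Y p
  let a : ℕ → ℝ := fun j => (1 / 2) ^ j * Real.exp (-C j)
  have ha : ∀ j, 0 < a j := fun j => by positivity
  have hsum : Summable fun j => (a j : 𝕜) • B j := by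
    refine Summable.of_norm_bounded summable_geometric_two fun j => ?_
    rw [norm_smul, RCLike.norm_ofReal, abs_of_pos (ha j)]
    refine (mul_le_mul_of_nonneg_left (hB1 j) (ha j).le).trans (le_of_eq ?_)
    simp only [a]
    rw [mul_assoc, ← Real.exp_add, neg_add_cancel, Real.exp_zero, mul_one]
  have hap : ∀ η, HasSum (fun j => (a j : 𝕜) • B j η) ((∑' j, (a j : 𝕜) • B j) η) :=
    fun η => hsum.hasSum.mapL (ContinuousLinearMap.apply 𝕜 _ η)
  refine ⟨∑' j, (a j : 𝕜) • B j, fun T hT => ?_, fun K hK f hf => ?_, ?_⟩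
  · exact Commute.tsum_left _ fun j => (IsOp.comm (hB j) hT).smul_left _
  · refine (isClosed_ae_mem hK.1).mem_of_tendsto (hap f) (Eventually.of_forall fun F => ?_)
    refine Finset.sum_induction _ (fun g : Lp Y p mu => ∀ᵐ x ∂mu, (g : ℝ × ℤ → Y) x ∈ K)
      (fun g g' h1 h2 => ?_) ?_ fun j _ => ?_
    · filter_upwards [h1, h2, Lp.coeFn_add g g'] with x e1 e2 e3
      rw [e3]
      exact hK.2.2.1 _ e1 _ e2
    · filter_upwards [Lp.coeFn_zero Y p mu] with x e1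
      rw [e1]
      exact hK.2.1
    · filter_upwards [IsOp.pres (hB j) hK f hf, Lp.coeFn_smul (a j : 𝕜) (B j f)] with x e1 e2
      rw [e2]
      exact hK.2.2.2 _ (ha j).le _ e1
  · intro M hc hA hcut j f hf
    have hpiece : ∀ m : ℤ,
        FM M (ct (Set.Ico (m : ℝ) (m + 1)) (ct (S j) (sh 𝕜 (s j) (k j) f))) := by
      intro m
      set I := Set.Ico (m : ℝ) (m + 1) with hI
      obtain ⟨η, hη, h1⟩ := hcut {t | t + s j ∈ I}
        (measurableSet_Ico.preimage (measurable_id.add_const _)) f hf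
      obtain ⟨P, -, hP⟩ := (bd_up (S := I) measurableSet_Ico le_rfl).exists_op 𝕜 Y p
      simp only [sh_zero] at hP
      have h2 : ∀ i, (P ((a i : 𝕜) • B i η) : ℝ × ℤ → Y) =ᵐ[mu] fun x => (a i : 𝕜) •
          ct I (ct (S i) (sh 𝕜 (s i) (k i) (ct {t | t + s j ∈ I} f))) x := by
        intro i
        rw [map_smul]
        filter_upwards [Lp.coeFn_smul (a i : 𝕜) (P (B i η)), (hP (B i η)).trans
          (ct_congr I ((hB i η).trans (ct_congr _ (sh_congr _ _ h1))))] with x e1 e2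
        rw [e1, Pi.smul_apply, e2]
      have h3 : P ((∑' j, (a j : 𝕜) • B j) η) = P ((a j : 𝕜) • B j η) := by
        refine ((hap η).mapL P).unique (hasSum_single j fun i hi => ?_)
        refine Lp.eq_zero_iff_ae_eq_zero.2 ((h2 i).trans (Eventually.of_forall fun x => ?_))
        rw [Pi.zero_apply, smul_eq_zero]
        right
        by_cases hx : x.1 ∈ I
        · rw [ct_of_mem _ hx]
          by_cases hx' : x.1 ∈ S i
          · rw [ct_of_mem _ hx', sh, ct_of_notMem, smul_zero]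
            intro h
            have h4 : x.1 - s i + s j ∈ I := h
            have h5 := hsep i j hi
            rw [le_abs] at h5
            rcases h5 with h5 | h5 <;> linarith [hx.1, hx.2, h4.1, h4.2]
          · exact ct_of_notMem _ hx'
        · exact ct_of_notMem _ hx
      have h4 := ((hcut I measurableSet_Ico _ (FM.of_mem (hA η hη))).congr (hP _).symm)
      rw [h3] at h4
      refine ((h4.congr (h2 j)).smul (a j : 𝕜)⁻¹).congr (Eventually.of_forall fun x => ?_)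
      have h5 : (a j : 𝕜) ≠ 0 := RCLike.ofReal_ne_zero.2 (ha j).ne'
      simp only [inv_smul_smul₀ h5]
      by_cases hx : x.1 ∈ I
      · rw [ct_of_mem _ hx, ct_of_mem _ hx, ct_sh_eq, ct_sh_eq]
        simp only
        rw [ct_of_mem f (by simpa using hx)]
      · rw [ct_of_notMem _ hx, ct_of_notMem _ hx]
    have h1 := FM.iUnion hq hc ((hC j).memLp (𝕜 := 𝕜) hf.memLp)
      (S := fun i => Prod.fst ⁻¹' Set.Ico ((Equiv.intEquivNat.symm i : ℤ) : ℝ)
        ((Equiv.intEquivNat.symm i : ℤ) + 1))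
      (fun i i' h => (Set.pairwise_disjoint_Ico_intCast ℝ
        (Equiv.intEquivNat.symm.injective.ne h)).preimage _) fun i => hpiece _
    refine h1.congr (Eventually.of_forall fun x => Set.indicator_of_mem ?_ _)
    refine Set.mem_iUnion.2 ⟨Equiv.intEquivNat ⌊x.1⌋, ?_⟩
    rw [Equiv.symm_apply_apply]
    exact ⟨Int.floor_le _, Int.lt_floor_add_one _⟩

/-- the generator -/
theorem exists_gen [CompleteSpace Y] (hq : p ≠ ∞) :
    ∃ A : Lp Y p mu →L[𝕜] Lp Y p mu, (∀ T, IsOp Set.univ 0 1 T → Commute A T) ∧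
      (∀ K, Cone 𝕜 K → Pres K A) ∧
      ∀ M : Submodule 𝕜 (Lp Y p mu), IsClosed (M : Set (Lp Y p mu)) → (∀ x ∈ M, A x ∈ M) →
        (∀ I, MeasurableSet I → ∀ f, FM M f → FM M (ct I f)) → Good M := by
  obtain ⟨R, hR⟩ := exists_nat_ge (|kc| + 1)
  have hk1 := le_abs_self kc
  have hk2 := neg_abs_le kc
  let S : ℕ → Set ℝ := fun j => match j with
    | 0 => kE
    | _ + 1 => Set.univ
  let s : ℕ → ℝ := fun j => match j with
    | 0 => kc
    | 1 => -R
    | 2 => -R - 1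
    | N + 3 => R + 2 * N + 1 / 2 ^ N
  let k : ℕ → ℤ := fun j => match j with
    | 0 => -1
    | 2 => 1
    | _ => 0
  have hh : ∀ N : ℕ, (0 : ℝ) < 1 / 2 ^ N ∧ (1 : ℝ) / 2 ^ N ≤ 1 := fun N =>
    ⟨by positivity, (div_le_one (by positivity)).2 (one_le_pow₀ one_le_two)⟩
  have hlt : ∀ i j, i < j → 1 ≤ |s i - s j| := by
    intro i j hij
    rw [le_abs]
    have hR0 : (0 : ℝ) ≤ R := Nat.cast_nonneg R
    match i, j, hij with
    | 0, 1, _ => left; simp only [s]; linarith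
    | 0, 2, _ => left; simp only [s]; linarith
    | 1, 2, _ => left; simp only [s]; linarith
    | 0, N + 3, _ => right; simp only [s]; linarith [(hh N).1, Nat.cast_nonneg (α := ℝ) N]
    | 1, N + 3, _ =>
      right; simp only [s]; linarith [(hh N).1, Nat.cast_nonneg (α := ℝ) N, abs_nonneg kc]
    | 2, N + 3, _ => right; simp only [s]; linarith [(hh N).1, Nat.cast_nonneg (α := ℝ) N]
    | N + 3, N' + 3, h =>
      right
      simp only [s]
      have h1 : (N : ℝ) + 1 ≤ N' := by exact_mod_cast (by omega : N + 1 ≤ N')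
      linarith [(hh N).2, (hh N').1]
  obtain ⟨A, h1, h2, h3⟩ := exists_sum (𝕜 := 𝕜) (Y := Y) hq (S := S) (s := s) (k := k)
    (fun j => match j with
      | 0 => bd_key
      | 1 => by simpa [S, s, k] using bd_dy (-R) 0 le_rfl
      | 2 => by simpa [S, s, k] using bd_dy (-R - 1) 0 zero_le_one
      | N + 3 => by
        have h := bd_dy ((R + 2 * N) * 2 ^ N + 1) N le_rfl
        have e : ((((R : ℤ) + 2 * N) * 2 ^ N + 1 : ℤ) : ℝ) / 2 ^ N = R + 2 * N + 1 / 2 ^ N := by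
          push_cast
          field_simp
        rwa [e] at h)
    (fun i j hij => by
      rcases lt_or_gt_of_ne hij with h | h
      · exact hlt i j h
      · rw [abs_sub_comm]
        exact hlt j i h)
  refine ⟨A, h1, h2, fun M hc hA hcut => ?_⟩
  have h4 := h3 M hc hA hcut
  let G : AddSubmonoid (ℝ × ℤ) :=
    { carrier := {x | ∀ f, FM M f → FM M (sh 𝕜 x.1 x.2 f)}
      zero_mem' := fun f hf => by simpa only [Prod.fst_zero, Prod.snd_zero, sh_zero] using hf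
      add_mem' := fun {x y} hx hy f hf => by
        have := hx _ (hy f hf)
        rwa [sh_sh] at this }
  have hG : ∀ j, (s (j + 1), k (j + 1)) ∈ G := fun j f hf => by
    have := h4 (j + 1) f hf
    rwa [show S (j + 1) = Set.univ from rfl, ct_univ] at this
  have g1 : ((-R : ℝ), (0 : ℤ)) ∈ G := hG 0
  have g2 : ((-R - 1 : ℝ), (1 : ℤ)) ∈ G := hG 1
  have g3 : ∀ N : ℕ, ((R + 2 * N + 1 / 2 ^ N : ℝ), (0 : ℤ)) ∈ G := fun N => hG (N + 2)
  have g4 : ∀ n : ℕ, ((n : ℝ), (0 : ℤ)) ∈ G := fun n => by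
    have := G.nsmul_mem (G.add_mem g1 (g3 0)) n
    simpa using this
  have hR1 : 1 ≤ R := by exact_mod_cast (show (1 : ℝ) ≤ R by linarith [abs_nonneg kc])
  have g5 : ∀ n : ℕ, ((-n : ℝ), (0 : ℤ)) ∈ G := fun n => by
    have := G.nsmul_mem (G.add_mem g1 (g4 (R - 1))) n
    convert this using 1
    simp only [Prod.mk_add_mk, Prod.smul_mk, nsmul_eq_mul, Nat.cast_sub hR1, add_zero, mul_zero,
      Prod.mk.injEq, and_true, Nat.cast_one]
    ring
  have g6 : ∀ N : ℕ, ((1 / 2 ^ N : ℝ), (0 : ℤ)) ∈ G := fun N => by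
    have := G.add_mem (g3 N) (g5 (R + 2 * N))
    convert this using 1
    simp only [Prod.mk_add_mk, add_zero, Prod.mk.injEq, and_true]
    push_cast
    ring
  refine ⟨hcut, fun l N => ?_, ?_, h4 0⟩
  · have hl : 0 ≤ l + l.natAbs * 2 ^ N := by
      have h5 : (1 : ℤ) ≤ 2 ^ N := one_le_pow₀ one_le_two
      have h6 : (0 : ℤ) ≤ l.natAbs := Int.natCast_nonneg _
      have h7 : -l ≤ l.natAbs := by omega
      nlinarith
    obtain ⟨n, hn⟩ := Int.eq_ofNat_of_zero_le hl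
    have := G.add_mem (G.nsmul_mem (g6 N) n) (g5 l.natAbs)
    have e : n • ((1 / 2 ^ N : ℝ), (0 : ℤ)) + ((-(l.natAbs : ℕ) : ℝ), (0 : ℤ)) =
        ((l : ℝ) / 2 ^ N, (0 : ℤ)) := by
      have h5 : (n : ℝ) = l + (l.natAbs : ℕ) * 2 ^ N := by
        have := congrArg (Int.cast : ℤ → ℝ) hn
        push_cast at this ⊢
        rw [← this]
        simp
      ext
      · simp only [Prod.smul_mk, Prod.mk_add_mk, nsmul_eq_mul]
        rw [h5]
        field_simp
        ring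
      · simp
    rw [e] at this
    exact this
  · have := G.add_mem g2 (g4 (R + 1))
    have e : ((-R - 1 : ℝ), (1 : ℤ)) + ((((R + 1 : ℕ) : ℝ)), (0 : ℤ)) = ((0 : ℝ), (1 : ℤ)) := by
      ext
      · simp
      · simp
    rw [e] at this
    exact this

/-- the multiplier -/
theorem exists_mul (hq : p ≠ ∞) :
    ∃ S : Lp Y p mu →L[𝕜] Lp Y p mu, (∀ T, IsOp Set.univ 0 1 T → Commute S T) ∧
      (∀ K, Cone 𝕜 K → Pres K S) ∧
      (∀ ξ : Lp Y p mu, (S ξ : ℝ × ℤ → Y) =ᵐ[mu] fun x => (Real.sigmoid x.1 : 𝕜) • ξ x) ∧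
      ∀ M : Submodule 𝕜 (Lp Y p mu), IsClosed (M : Set (Lp Y p mu)) → (∀ x ∈ M, S x ∈ M) →
        ∀ I, MeasurableSet I → ∀ f, FM M f → FM M (ct I f) := by
  obtain ⟨S, -, hS⟩ := exists_wc (𝕜 := 𝕜) (Y := Y) (p := p) (μ := mu)
    (w := fun x => Real.sigmoid x.1) (Real.sigmoid_monotone.measurable.comp measurable_fst)
    zero_le_one (fun x => by
      rw [abs_of_pos (Real.sigmoid_pos _)]
      exact Real.sigmoid_le_one _) (MeasurePreserving.id mu)
  refine ⟨S, fun T hT => ?_, fun K hK f hf => ?_, hS, fun M hc hM I hI f hf => ?_⟩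
  · refine ContinuousLinearMap.ext fun ξ => Lp.ext ?_
    filter_upwards [hS (T ξ), hT ξ, (hT (S ξ)).trans (ct_congr _ (sh_congr 0 1 (hS ξ)))]
      with x e1 e2 e3
    change (S (T ξ) : ℝ × ℤ → Y) x = (T (S ξ) : ℝ × ℤ → Y) x
    rw [e1, e3, id, e2, ct_univ, ct_univ, sh, sh, smul_comm, sub_zero, id]
  · filter_upwards [hS f, hf] with x e1 e2
    rw [e1]
    exact hK.2.2.2 _ (Real.sigmoid_nonneg _) _ e2
  · refine FM.cut_of_mul hq hc Real.sigmoid_strictMono Real.sigmoid_nonneg Real.sigmoid_le_one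
      (fun g hg => ?_) hI hf
    obtain ⟨a, ha, h⟩ := hg
    refine ⟨S a, hM a ha, ?_⟩
    filter_upwards [hS a, h] with x e1 e2
    rw [e1, id, e2]

end Vale.Agent.N131L
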