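import Vale.Agent.N131L.Gen
import Vale.Agent.N131L.Defs
import Mathlib.MeasureTheory.Function.AEEqOfIntegral
import Mathlib.Analysis.InnerProductSpace.Adjoint

/-!
Vector valued functions, and the transfer to the real line and to Hilbert spaces.
-/

namespace Vale.Agent.N131L

open MeasureTheory Filter Topology Vale.Agent.P131
open scoped ENNReal

variable {𝕜 : Type*} [RCLike 𝕜] {Y : Type*} [NormedAddCommGroup Y] [NormedSpace 𝕜 Y] {p : ℝ≥0∞}

theorem qn_of_bound {E : Type*} [NormedAddCommGroup E] [NormedSpace 𝕜 E] {T : E →L[𝕜] E}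
    (h : ∀ L : ℝ, 0 ≤ L → ∃ K : ℝ, ∀ m : ℕ, ‖T ^ m‖ ≤ Real.exp (K - L * m)) :
    Quasinilpotent T := by
  refine tendsto_order.2 ⟨fun a ha => Eventually.of_forall fun n =>
    ha.trans_le (Real.rpow_nonneg (norm_nonneg _) _), fun a ha => ?_⟩
  obtain ⟨K, hK⟩ := h (|Real.log a| + 2) (by positivity)
  obtain ⟨N, hN⟩ := exists_nat_ge K
  filter_upwards [eventually_ge_atTop (N + 1)] with n hn
  have h1 : (N : ℝ) + 1 ≤ n := by exact_mod_cast hn
  have h2 : (0 : ℝ) < n := by linarith [Nat.cast_nonneg (α := ℝ) N]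
  refine (Real.rpow_le_rpow (norm_nonneg _) (hK n) (by positivity)).trans_lt ?_
  rw [← Real.exp_mul, ← Real.exp_log ha, Real.exp_lt_exp, Real.log_exp, mul_one_div,
    div_lt_iff₀ h2]
  nlinarith [neg_abs_le (Real.log a)]

section conj

variable {E F : Type*} [NormedAddCommGroup E] [NormedSpace 𝕜 E] [NormedAddCommGroup F]
  [NormedSpace 𝕜 F] (e : E ≃ₗᵢ[𝕜] F)

/-- conjugation by an isometry -/
noncomputable abbrev cj := e.toContinuousLinearEquiv.conjContinuousAlgEquiv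

theorem Quasinilpotent.cj {T : E →L[𝕜] E} (h : Quasinilpotent T) : Quasinilpotent (cj e T) := by
  refine h.congr fun n => ?_
  rw [← map_pow, ContinuousLinearEquiv.conjContinuousAlgEquiv_apply]
  congr 1
  exact ((e.toLinearIsometry.norm_toContinuousLinearMap_comp).trans
    (ContinuousLinearMap.opNorm_comp_linearIsometryEquiv _ e.symm)).symm

theorem Transitive.cj {𝒮 : Set (E →L[𝕜] E)} {𝒯 : Set (F →L[𝕜] F)} (h : Transitive 𝒮)
    (hST : ∀ A ∈ 𝒮, cj e A ∈ 𝒯) : Transitive 𝒯 := by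
  intro M hM hinv
  rcases h (M.comap (e.toLinearEquiv : E →ₗ[𝕜] F)) (hM.preimage e.continuous)
    (fun A hA x hx => by simpa using hinv _ (hST A hA) (e x) hx) with h | h
  · left
    refine (Submodule.eq_bot_iff _).2 fun y hy => ?_
    have h1 : e.symm y ∈ M.comap (e.toLinearEquiv : E →ₗ[𝕜] F) := by simpa using hy
    rw [h, Submodule.mem_bot] at h1
    simpa using h1
  · right
    refine Submodule.eq_top_iff'.2 fun y => ?_
    have h1 : e.symm y ∈ M.comap (e.toLinearEquiv : E →ₗ[𝕜] F) := by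
      rw [h]
      trivial
    simpa using h1

end conj

/-- a measure preserving identification of `ℝ × ℤ` with `ℝ` -/
theorem exists_mequiv : ∃ e : ℝ × ℤ ≃ᵐ ℝ, MeasurePreserving e mu volume := by
  let b : ℤ × ℤ ≃ ℤ := (Denumerable.eqv (ℤ × ℤ)).trans (Denumerable.eqv ℤ).symm
  have h1 : ∀ (t : ℝ) (z : ℤ), ⌊Int.fract t + z⌋ = z := fun t z => by
    rw [Int.floor_add_intCast, Int.floor_fract, zero_add]
  have h2 : ∀ (t : ℝ) (z : ℤ), Int.fract (Int.fract t + z) = Int.fract t := fun t z => by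
    rw [Int.fract_add_intCast, Int.fract_fract]
  have hc : Measurable fun z : ℤ => (z : ℝ) := measurable_of_countable _
  let e : ℝ × ℤ ≃ᵐ ℝ :=
    { toFun := fun x => Int.fract x.1 + (b (⌊x.1⌋, x.2) : ℤ)
      invFun := fun y => (Int.fract y + ((b.symm ⌊y⌋).1 : ℤ), (b.symm ⌊y⌋).2)
      left_inv := fun x => by
        simp only [h1, h2, Equiv.symm_apply_apply, Int.fract_add_floor]
      right_inv := fun y => by
        simp only [h1, h2, Prod.mk.eta, Equiv.apply_symm_apply, Int.fract_add_floor]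
      measurable_toFun := (measurable_fract.comp measurable_fst).add
        (hc.comp ((measurable_of_countable b).comp
          ((Int.measurable_floor.comp measurable_fst).prodMk measurable_snd)))
      measurable_invFun := (measurable_fract.add (hc.comp
        ((measurable_of_countable fun z => (b.symm z).1).comp Int.measurable_floor))).prodMk
        ((measurable_of_countable fun z => (b.symm z).2).comp Int.measurable_floor) }
  have he : ∀ x, e x = Int.fract x.1 + (b (⌊x.1⌋, x.2) : ℤ) := fun _ => rfl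
  refine ⟨e, e.measurable, Measure.ext_of_iUnion_eq_univ (iUnion_Ico_intCast ℝ) fun j => ?_⟩
  ext A hA
  rw [Measure.restrict_apply hA, Measure.restrict_apply hA, e.map_apply]
  obtain ⟨⟨m, n⟩, rfl⟩ := b.surjective j
  have h3 : e ⁻¹' (A ∩ Set.Ico ((b (m, n) : ℤ) : ℝ) ((b (m, n) : ℤ) + 1)) =
      ((fun t : ℝ => t + (((b (m, n) : ℤ) : ℝ) - m)) ⁻¹'
        (A ∩ Set.Ico ((b (m, n) : ℤ) : ℝ) ((b (m, n) : ℤ) + 1))) ×ˢ {n} := by
    ext ⟨t, k⟩
    simp only [Set.mem_preimage, Set.mem_prod, Set.mem_singleton_iff, he]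
    constructor
    · intro h
      have h4 := Int.floor_eq_iff.2 h.2
      rw [h1] at h4
      obtain ⟨rfl, rfl⟩ := Prod.mk.inj (b.injective h4)
      refine ⟨?_, rfl⟩
      convert h using 1
      rw [Int.fract]
      ring
    · rintro ⟨h, rfl⟩
      have h4 : ⌊t⌋ = m := Int.floor_eq_iff.2 ⟨by linarith [h.2.1], by linarith [h.2.2]⟩
      subst h4
      convert h using 1
      rw [Int.fract]
      ring
  rw [h3, mu_prod, measure_preimage_add_right]

variable [Fact (1 ≤ p)]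

variable (𝕜 Y p) in
theorem exists_iso : ∃ e : Lp Y p mu ≃ₗᵢ[𝕜] Lp Y p (volume : Measure ℝ),
    ∀ (K : Set Y) (A : Lp Y p mu →L[𝕜] Lp Y p mu), Pres K A → Pres K (cj e A) := by
  obtain ⟨e, he⟩ := exists_mequiv
  have he' := he.symm e
  let U := Lp.compMeasurePreservingₗᵢ (E := Y) (p := p) 𝕜 _ he'
  have hU : ∀ f, (U f : ℝ → Y) =ᵐ[volume] f ∘ e.symm := fun f =>
    Lp.coeFn_compMeasurePreserving f he'
  have hV : ∀ g : Lp Y p (volume : Measure ℝ), U (Lp.compMeasurePreserving e he g) = g := by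
    intro g
    refine Lp.ext ?_
    filter_upwards [hU (Lp.compMeasurePreserving e he g),
      he'.quasiMeasurePreserving.ae (Lp.coeFn_compMeasurePreserving g he)] with x h1 h2
    rw [h1, Function.comp_apply, h2, Function.comp_apply, e.apply_symm_apply]
  refine ⟨LinearIsometryEquiv.ofSurjective U fun g => ⟨_, hV g⟩, fun K A hA g hg => ?_⟩
  set W := LinearIsometryEquiv.ofSurjective U fun g => ⟨_, hV g⟩
  have h1 : W.symm g = Lp.compMeasurePreserving e he g := W.symm_apply_eq.2 (hV g).symm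
  have h2 := hA (W.symm g) (by
    rw [h1]
    filter_upwards [Lp.coeFn_compMeasurePreserving g he, he.quasiMeasurePreserving.ae hg]
      with x e1 e2
    rw [e1]
    exact e2)
  filter_upwards [hU (A (W.symm g)), he'.quasiMeasurePreserving.ae h2] with x e1 e2
  change (U (A (W.symm g)) : ℝ → Y) x ∈ K
  rw [e1]
  exact e2

variable (𝕜 Y p) in
theorem exists_T : ∃ T : Lp Y p mu →L[𝕜] Lp Y p mu, IsOp Set.univ 0 1 T := by
  obtain ⟨T, -, hT⟩ := (bd_up MeasurableSet.univ zero_le_one).exists_op 𝕜 Y p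
  exact ⟨T, hT⟩

/-- the scalar functions `u` with `u • y` in `M` for all `y` -/
def NY (M : Submodule 𝕜 (Lp Y p mu)) : Submodule 𝕜 (Lp 𝕜 p mu) where
  carrier := {u | ∀ y : Y, FM M fun x => (u : ℝ × ℤ → 𝕜) x • y}
  zero_mem' := fun y => FM.zero.congr (by
    filter_upwards [Lp.coeFn_zero 𝕜 p mu] with x hx
    rw [hx]
    simp)
  add_mem' := fun {a b} ha hb y => ((ha y).add (hb y)).congr (by
    filter_upwards [Lp.coeFn_add a b] with x hx
    rw [hx, Pi.add_apply, add_smul])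
  smul_mem' := fun c a ha y => ((ha y).smul c).congr (by
    filter_upwards [Lp.coeFn_smul c a] with x hx
    rw [hx, Pi.smul_apply, smul_assoc])

omit [Fact (1 ≤ p)] in
theorem fm_NY {M : Submodule 𝕜 (Lp Y p mu)} {f : ℝ × ℤ → 𝕜} :
    FM (Y := 𝕜) (NY M) f ↔ MemLp f p mu ∧ ∀ y : Y, FM M fun x => f x • y := by
  constructor
  · intro hf
    refine ⟨hf.memLp, fun y => ?_⟩
    obtain ⟨u, hu, h1⟩ := hf
    refine (hu y).congr ?_
    filter_upwards [h1] with x hx
    rw [hx]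
  · rintro ⟨h1, h2⟩
    refine ⟨h1.toLp f, fun y => (h2 y).congr ?_, h1.coeFn_toLp⟩
    filter_upwards [h1.coeFn_toLp] with x hx
    rw [hx]

theorem closed_NY {M : Submodule 𝕜 (Lp Y p mu)} (hc : IsClosed (M : Set (Lp Y p mu))) :
    IsClosed (NY M : Set (Lp 𝕜 p mu)) := by
  have h : (NY M : Set (Lp 𝕜 p mu)) = ⋂ y : Y,
      ((ContinuousLinearMap.toSpanSingleton 𝕜 y).compLpL p mu) ⁻¹' (M : Set (Lp Y p mu)) := by
    ext u
    refine Iff.trans (forall_congr' fun y => ?_) Set.mem_iInter.symm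
    have h1 := (ContinuousLinearMap.toSpanSingleton 𝕜 y).coeFn_compLpL u
    exact ⟨fun h => FM.mem (h.congr (EventuallyEq.symm h1)), fun h => ⟨_, h, h1⟩⟩
  rw [h]
  exact isClosed_iInter fun y => hc.preimage (ContinuousLinearMap.continuous _)

omit [Fact (1 ≤ p)] in
theorem good_NY {M : Submodule 𝕜 (Lp Y p mu)} (hG : Good M) :
    Good (Y := 𝕜) (NY M) := by
  have h : ∀ {S s k C}, Bd S s k C → (∀ f, FM M f → FM M (ct S (sh 𝕜 s k f))) →
      ∀ f, FM (Y := 𝕜) (NY M) f → FM (Y := 𝕜) (NY M) (ct S (sh 𝕜 s k f)) := by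
    intro S s k C hb hM f hf
    obtain ⟨h1, h2⟩ := fm_NY.1 hf
    refine fm_NY.2 ⟨hb.memLp h1, fun y => ?_⟩
    have := hM _ (h2 y)
    rw [ct_sh_eq] at this ⊢
    simpa only [smul_assoc] using this
  refine ⟨fun S hS f hf => ?_, fun k N f hf => ?_, fun f hf => ?_, fun f hf => ?_⟩
  · simpa only [sh_zero] using h (bd_up hS le_rfl) (by simpa only [sh_zero] using hG.cut S hS) f hf
  · obtain ⟨C, hC⟩ := bd_dy k N le_rfl
    simpa only [ct_univ] using h hC (by simpa only [ct_univ] using hG.dy k N) f hf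
  · simpa only [ct_univ] using h (bd_up MeasurableSet.univ zero_le_one)
      (by simpa only [ct_univ] using hG.up) f hf
  · obtain ⟨C, hC⟩ := bd_key
    exact h hC hG.key f hf

/-- the commutant of the shift on vector valued functions is transitive -/
theorem IsOp.transitive (hq : p ≠ ∞) {T : Lp Y p mu →L[𝕜] Lp Y p mu}
    (hT : IsOp Set.univ 0 1 T) : Transitive (Set.centralizer {T}) := by
  intro M hc hM
  have hM' : ∀ A, Commute A T → ∀ x ∈ M, A x ∈ M := fun A hA =>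
    hM A (Set.mem_centralizer_iff.2 fun B hB => by rw [hB]; exact hA.symm.eq)
  rcases good_trivial hq (closed_NY hc) (good_NY (good_of_comm hT hM')) with h | h
  · left
    refine (Submodule.eq_bot_iff _).2 fun ξ hξ => Lp.eq_zero_iff_ae_eq_zero.2 ?_
    obtain ⟨t, ht, h1⟩ := (Lp.aestronglyMeasurable ξ).isSeparable_ae_range
    refine ae_eq_zero_of_forall_dual_of_isSeparable 𝕜 ht (fun c => ?_) h1
    have hcomm : ∀ y : Y, Commute ((c.smulRight y).compLpL p mu) T := by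
      intro y
      refine ContinuousLinearMap.ext fun η => Lp.ext ?_
      filter_upwards [(c.smulRight y).coeFn_compLpL (T η), hT η,
        (hT _).trans (ct_congr _ (sh_congr 0 1 ((c.smulRight y).coeFn_compLpL η)))] with x e1 e2 e3
      change ((c.smulRight y).compLpL p mu (T η) : ℝ × ℤ → Y) x =
        (T ((c.smulRight y).compLpL p mu η) : ℝ × ℤ → Y) x
      rw [e1, e3, e2, ct_univ, ct_univ, sh, sh, map_smul]
    obtain ⟨u, hu, h2⟩ := (fm_NY (M := M) (f := fun x => c (ξ x))).2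
      ⟨c.comp_memLp ξ, fun y => ⟨_, hM' _ (hcomm y) ξ hξ, (c.smulRight y).coeFn_compLpL ξ⟩⟩
    rw [h, Submodule.mem_bot] at hu
    rw [hu] at h2
    exact h2.symm.trans (Lp.coeFn_zero 𝕜 p mu)
  · right
    refine Submodule.eq_top_iff'.2 fun x => ?_
    refine Lp.induction hq (fun f => f ∈ M) (fun c s hs hμs => ?_)
      (fun f g hf hg _ h1 h2 => M.add_mem h1 h2) hc x
    have h1 : FM (Y := 𝕜) (NY M) (indicatorConstLp p hs hμs.ne (1 : 𝕜)) :=
      FM.of_mem (by rw [h]; trivial)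
    refine FM.mem (((fm_NY.1 h1).2 c).congr ?_)
    rw [Lp.simpleFunc.coe_indicatorConst]
    filter_upwards [indicatorConstLp_coeFn (p := p) (hs := hs) (hμs := hμs.ne) (c := c),
      indicatorConstLp_coeFn (p := p) (hs := hs) (hμs := hμs.ne) (c := (1 : 𝕜))] with x e1 e2
    rw [e1, e2]
    by_cases hx : x ∈ s <;> simp [hx]

theorem main_vector [Nontrivial Y] (hq : p ≠ ∞) :
    ∃ T : Lp Y p (volume : Measure ℝ) →L[𝕜] Lp Y p (volume : Measure ℝ),
      T ≠ 0 ∧ Quasinilpotent T ∧ Transitive (Set.centralizer {T}) := by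
  obtain ⟨T, hT⟩ := exists_T 𝕜 Y p
  obtain ⟨e, -⟩ := exists_iso 𝕜 Y p
  refine ⟨cj e T, (map_ne_zero_iff _ (cj e).injective).2 hT.ne_zero,
    (qn_of_bound fun L hL => hT.qn hL).cj e, (hT.transitive hq).cj e fun A hA => ?_⟩
  refine Set.mem_centralizer_iff.2 fun B hB => ?_
  rw [hB, ← map_mul, ← map_mul, hA T rfl]

theorem main_mu (hq : p ≠ ∞) : ∃ T S A : Lp 𝕜 p mu →L[𝕜] Lp 𝕜 p mu,
    T ≠ 0 ∧ Quasinilpotent T ∧ Commute S T ∧ Commute A T ∧ Transitive {S, A} ∧
    (∀ K, Cone 𝕜 K → Pres K T ∧ Pres K S ∧ Pres K A) ∧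
    ∀ ξ : Lp 𝕜 p mu, (S ξ : ℝ × ℤ → 𝕜) =ᵐ[mu] fun x => (Real.sigmoid x.1 : 𝕜) • ξ x := by
  obtain ⟨T, hT⟩ := exists_T 𝕜 𝕜 p
  obtain ⟨A, a1, a2, a3⟩ := exists_gen (𝕜 := 𝕜) (Y := 𝕜) hq
  obtain ⟨S, s1, s2, s3, s4⟩ := exists_mul (𝕜 := 𝕜) (Y := 𝕜) hq
  exact ⟨T, S, A, hT.ne_zero, qn_of_bound fun L hL => hT.qn hL, s1 T hT, a1 T hT,
    fun M hc hM => good_trivial hq hc (a3 M hc (hM A (by simp)) (s4 M hc (hM S (by simp)))),
    fun K hK => ⟨hT.pres hK, s2 K hK, a2 K hK⟩, s3⟩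

theorem pair_cj {E F : Type*} [NormedAddCommGroup E] [NormedSpace 𝕜 E] [NormedAddCommGroup F]
    [NormedSpace 𝕜 F] (e : E ≃ₗᵢ[𝕜] F) {S A : E →L[𝕜] E} (h : Transitive {S, A}) :
    Transitive {cj e S, cj e A} := by
  refine h.cj e ?_
  rintro B (rfl | rfl) <;> simp

theorem main_scalar (hq : p ≠ ∞) :
    HasPositivePair 𝕜 {f : Lp 𝕜 p (volume : Measure ℝ) | AENonneg f} := by
  obtain ⟨T, S, A, h1, h2, h3, h4, h5, h6, -⟩ := main_mu (𝕜 := 𝕜) hq
  obtain ⟨e, he⟩ := exists_iso 𝕜 𝕜 p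
  obtain ⟨h7, h8, h9⟩ := h6 {z | 0 ≤ RCLike.re z ∧ RCLike.im z = 0}
    ⟨(isClosed_le continuous_const RCLike.continuous_re).inter
      (isClosed_eq RCLike.continuous_im continuous_const), by simp,
      fun a ha b hb => ⟨by rw [map_add]; exact add_nonneg ha.1 hb.1, by simp [ha.2, hb.2]⟩,
      fun r hr a ha => ⟨by simpa using mul_nonneg hr ha.1, by simp [ha.2]⟩⟩
  exact ⟨cj e T, cj e S, cj e A, (map_ne_zero_iff _ (cj e).injective).2 h1, h2.cj e,
    h3.map _, h4.map _, pair_cj e h5, he _ _ h7, he _ _ h8, he _ _ h9⟩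

theorem nonscalar {E : Type*} [NormedAddCommGroup E] [NormedSpace 𝕜 E] {T : E →L[𝕜] E}
    (h0 : T ≠ 0) (h : Quasinilpotent T) (z : 𝕜) : T ≠ z • 1 := by
  rintro rfl
  have : Nontrivial E := by
    by_contra hE
    rw [not_nontrivial_iff_subsingleton] at hE
    exact h0 (Subsingleton.elim _ _)
  have h1 : Tendsto (fun n : ℕ => ‖(z • 1 : E →L[𝕜] E) ^ n‖ ^ (1 / n : ℝ)) atTop (𝓝 ‖z‖) := by
    refine tendsto_const_nhds.congr' ?_
    filter_upwards [eventually_ne_atTop 0] with n hn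
    rw [smul_pow, one_pow, norm_smul, norm_one, mul_one, norm_pow, one_div,
      Real.pow_rpow_inv_natCast (norm_nonneg _) hn]
  rw [norm_eq_zero.1 (tendsto_nhds_unique h1 h), zero_smul] at h0
  exact h0 rfl

theorem main_hilbert (H : Type*) [NormedAddCommGroup H] [InnerProductSpace ℂ H] [CompleteSpace H]
    [TopologicalSpace.SeparableSpace H] (hH : ¬ FiniteDimensional ℂ H) :
    ∃ T S A : H →L[ℂ] H, T ≠ 0 ∧ Quasinilpotent T ∧ Commute S T ∧ Commute A T ∧
      Transitive {S, A} ∧ IsSelfAdjoint S := by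
  obtain ⟨T, S, A, h1, h2, h3, h4, h5, -, h6⟩ := main_mu (𝕜 := ℂ) (p := 2) ENNReal.ofNat_ne_top
  have hfin : ¬ FiniteDimensional ℂ Hs := not_finite_of_transitive Hs T (nonscalar h1 h2)
    fun M hc hM => h5 M hc (by
      rintro B (rfl | rfl)
      · exact hM _ h3.eq
      · exact hM _ h4.eq)
  obtain ⟨e⟩ := exists_equiv Hs H hfin hH
  have h7 : IsSelfAdjoint S := by
    refine ContinuousLinearMap.isSelfAdjoint_iff_isSymmetric.2 fun ξ η => ?_
    rw [L2.inner_def, L2.inner_def]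
    refine integral_congr_ae ?_
    filter_upwards [h6 ξ, h6 η] with x e1 e2
    change inner ℂ ((S ξ : ℝ × ℤ → ℂ) x) _ = inner ℂ _ ((S η : ℝ × ℤ → ℂ) x)
    rw [e1, e2, inner_smul_left, inner_smul_right, RCLike.conj_ofReal]
  exact ⟨cj e T, cj e S, cj e A, (map_ne_zero_iff _ (cj e).injective).2 h1, h2.cj e,
    h3.map _, h4.map _, pair_cj e h5, h7.map e.conjStarAlgEquiv⟩

end Vale.Agent.N131L
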