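import Vale.Agent.N131L.Core

/-!
Reduction of the `L^p` statement to the Hilbert space core.
-/

namespace Vale.Agent.N131L

open MeasureTheory Filter Topology Vale.Agent.P131
open scoped ENNReal

variable {𝕜 : Type*} [RCLike 𝕜] {Y : Type*} [NormedAddCommGroup Y] [NormedSpace 𝕜 Y] {p : ℝ≥0∞}

/-- the weight is bounded by `exp C` on `S` -/
def Bd (S : Set ℝ) (s : ℝ) (k : ℤ) (C : ℝ) : Prop :=
  MeasurableSet S ∧ ∀ t ∈ S, ∀ n : ℤ, hp t n - hp (t - s) (n - k) ≤ C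

theorem bd_dy (k : ℤ) (N : ℕ) {l : ℤ} (hl : 0 ≤ l) :
    ∃ C, Bd Set.univ ((k : ℝ) / 2 ^ N) l C := by
  obtain ⟨C, hC⟩ := hp_dyadic k N
  refine ⟨C, MeasurableSet.univ, fun t _ n => ?_⟩
  have h1 := hC t n
  have h2 := hp_antitone (t - k / 2 ^ N) (show n - l ≤ n by omega)
  linarith

theorem bd_up {S : Set ℝ} (hS : MeasurableSet S) {l : ℤ} (hl : 0 ≤ l) : Bd S 0 l 0 := by
  refine ⟨hS, fun t _ n => ?_⟩
  have h2 := hp_antitone t (show n - l ≤ n by omega)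
  rw [sub_zero]
  linarith

theorem bd_key : ∃ C, Bd kE kc (-1) C := by
  obtain ⟨h1, -, C, hC⟩ := key_spec
  exact ⟨C, h1, hC⟩

theorem ct_sh_eq (S : Set ℝ) (s : ℝ) (k : ℤ) (f : ℝ × ℤ → Y) :
    ct S (sh 𝕜 s k f) = fun q => ((ct S (ww s k) q : ℝ) : 𝕜) • f (q.1 - s, q.2 - k) := by
  funext q
  by_cases h : q.1 ∈ S
  · rw [ct_of_mem _ h, ct_of_mem _ h]
    rfl
  · rw [ct_of_notMem _ h, ct_of_notMem _ h]
    simp

theorem ct_ww_nonneg (S : Set ℝ) (s : ℝ) (k : ℤ) (q : ℝ × ℤ) : 0 ≤ ct S (ww s k) q :=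
  Set.indicator_nonneg (fun q _ => (ww_pos s k q).le) q

theorem Bd.meas {S : Set ℝ} {s : ℝ} {k : ℤ} {C : ℝ} (h : Bd S s k C) :
    Measurable (ct S (ww s k)) := (ww_measurable s k).indicator (measurable_fst h.1)

theorem Bd.le {S : Set ℝ} {s : ℝ} {k : ℤ} {C : ℝ} (h : Bd S s k C) (q : ℝ × ℤ) :
    |ct S (ww s k) q| ≤ Real.exp C := by
  rw [abs_of_nonneg (ct_ww_nonneg S s k q)]
  by_cases hq : q.1 ∈ S
  · rw [ct_of_mem _ hq]
    exact Real.exp_le_exp.2 (h.2 _ hq _)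
  · rw [ct_of_notMem _ hq]
    exact (Real.exp_pos C).le

theorem Bd.memLp {S : Set ℝ} {s : ℝ} {k : ℤ} {C : ℝ} (h : Bd S s k C) {f : ℝ × ℤ → Y}
    (hf : MemLp f p mu) : MemLp (ct S (sh 𝕜 s k f)) p mu := by
  rw [ct_sh_eq]
  exact memLp_wc h.meas h.le (mp_shift s k) hf

variable (𝕜 Y p) in
theorem Bd.exists_op [Fact (1 ≤ p)] {S : Set ℝ} {s : ℝ} {k : ℤ} {C : ℝ} (h : Bd S s k C) :
    ∃ A : Lp Y p mu →L[𝕜] Lp Y p mu, ‖A‖ ≤ Real.exp C ∧
      ∀ ξ : Lp Y p mu, (A ξ : ℝ × ℤ → Y) =ᵐ[mu] ct S (sh 𝕜 s k ξ) := by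
  simp only [ct_sh_eq]
  exact exists_wc h.meas (Real.exp_pos C).le h.le (mp_shift s k)

theorem hp_step (m : ℤ) : ∃ j : ℕ, m.natAbs ≤ j + 1 ∧ ∀ t : ℝ,
    dr t j ≤ hp t (m - 1) - hp t m ∧ hp t (m - 1) - hp t m ≤ dl t j := by
  rcases le_or_gt m 0 with h | h
  · obtain ⟨j, rfl⟩ : ∃ j : ℕ, m = -(j : ℤ) := ⟨(-m).toNat, by omega⟩
    refine ⟨j, by omega, fun t => ?_⟩
    have e : -(j : ℤ) - 1 = -((j + 1 : ℕ) : ℤ) := by push_cast; ring
    unfold hp
    rw [e, hh_neg_natCast, hh_neg_natCast, Finset.sum_range_succ]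
    have := dr_le_dl t j
    constructor <;> linarith
  · obtain ⟨j, rfl⟩ : ∃ j : ℕ, m = ((j + 1 : ℕ) : ℤ) := ⟨(m - 1).toNat, by omega⟩
    refine ⟨j, by omega, fun t => ?_⟩
    have e : ((j + 1 : ℕ) : ℤ) - 1 = (j : ℤ) := by push_cast; ring
    unfold hp
    rw [e, hh_natCast, hh_natCast, Finset.sum_range_succ]
    have := dr_le_dl t j
    constructor <;> linarith

theorem ww_inv_le (m : ℤ) : ∃ K : ℝ, ∀ t : ℝ, (ww 0 1 (t, m))⁻¹ ≤ K := by
  obtain ⟨j, -, h⟩ := hp_step m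
  refine ⟨Real.exp (4 ^ blk j * 4), fun t => ?_⟩
  rw [ww, ← Real.exp_neg, sub_zero]
  refine Real.exp_le_exp.2 ?_
  have h1 : dl t j ≤ 4 ^ blk j * 4 :=
    mul_le_mul_of_nonneg_left (by linarith [ph_nonneg (blk j) t]) (pow_four_pos _).le
  linarith [(h t).2]

/-- the weight of the shift over a set of finite measure is in every `L^q` -/
theorem memLp_ww {S : Set ℝ} (hS : MeasurableSet S) (hS0 : volume S ≠ ∞) {q : ℝ≥0∞} (hq1 : 1 ≤ q)
    (hq : q ≠ ∞) : MemLp (ct S (ww 0 1)) q mu := by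
  obtain ⟨c, hc, hg⟩ := dr_growth
  have hb := bd_up hS (zero_le_one' ℤ)
  have he : Summable fun m : ℤ => Real.exp ((m.natAbs : ℝ) * (-c)) :=
    Uni.summable_natAbs (e := fun n => Real.exp ((n : ℝ) * (-c)))
      (Real.summable_exp_nat_mul_iff.2 (by linarith))
  have h1 : Integrable (fun x : ℝ × ℤ => S.indicator (fun _ => (1 : ℝ)) x.1 *
      Real.exp ((x.2.natAbs : ℝ) * (-c))) mu := by
    refine Integrable.mul_prod (f := S.indicator (fun _ => (1 : ℝ)))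
      (g := fun m : ℤ => Real.exp ((m.natAbs : ℝ) * (-c))) ?_ ?_
    · exact memLp_one_iff_integrable.1 (memLp_indicator_const 1 hS 1 (Or.inr hS0))
    · rw [integrable_count_iff]
      simpa using he
  have hq0 : q ≠ 0 := (zero_lt_one.trans_le hq1).ne'
  have hr : 1 ≤ q.toReal := by simpa using ENNReal.toReal_mono hq hq1
  rw [← integrable_norm_rpow_iff hb.meas.aestronglyMeasurable hq0 hq]
  refine h1.mono' (hb.meas.norm.pow_const _).aestronglyMeasurable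
    (Eventually.of_forall fun x => ?_)
  rw [Real.norm_of_nonneg (Real.rpow_nonneg (norm_nonneg _) _)]
  have h2 := hb.le x
  rw [Real.exp_zero] at h2
  refine (Real.rpow_le_self_of_le_one (norm_nonneg _) h2 hr).trans ?_
  by_cases hx : x.1 ∈ S
  · rw [ct_of_mem _ hx, Set.indicator_of_mem hx, one_mul, Real.norm_of_nonneg (ww_pos _ _ _).le,
      ww, sub_zero]
    refine Real.exp_le_exp.2 ?_
    obtain ⟨j, hj, h⟩ := hp_step x.2
    have h3 : (x.2.natAbs : ℝ) ≤ (j : ℝ) + 1 := by exact_mod_cast hj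
    have h4 : (j : ℝ) + 1 ≤ ((j : ℝ) + 1) ^ 2 := by nlinarith [Nat.cast_nonneg (α := ℝ) j]
    have h5 := mul_le_mul_of_nonneg_left (h3.trans h4) hc.le
    linarith [(h x.1).1, hg x.1 j]
  · rw [ct_of_notMem _ hx, Set.indicator_of_notMem hx]
    simp

theorem pi_mul (z : ℂ) (a : 𝕜) :
    RCLike.map ℂ 𝕜 (z * RCLike.map 𝕜 ℂ a) = RCLike.map ℂ 𝕜 z * a := by
  have h1 : (RCLike.I : 𝕜) * RCLike.I * (RCLike.im a : 𝕜) = -(RCLike.im a : 𝕜) := by
    rcases RCLike.I_mul_I_ax (K := 𝕜) with h | h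
    · have h2 : RCLike.im a = 0 := by
        have h3 := RCLike.re_add_im a
        rw [h, mul_zero, add_zero] at h3
        rw [← h3, RCLike.ofReal_im]
      simp [h2]
    · rw [h]; ring
  conv_rhs => rw [← RCLike.re_add_im a]
  simp only [RCLike.map_apply, RCLike.re_to_complex, RCLike.im_to_complex, RCLike.I_to_complex,
    Complex.coe_algebraMap, Complex.mul_re, Complex.mul_im, Complex.add_re, Complex.add_im,
    Complex.ofReal_re, Complex.ofReal_im, Complex.I_re, Complex.I_im]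
  push_cast
  linear_combination (-(z.im : 𝕜)) * h1

theorem pi_one : RCLike.map ℂ 𝕜 1 = 1 := by simp

theorem pi_smul (z x : ℂ) (r : ℝ) :
    RCLike.map ℂ 𝕜 (z * ((r : ℂ) • x)) = (r : 𝕜) • RCLike.map ℂ 𝕜 (z * x) := by
  have : z * ((r : ℂ) • x) = r • (z * x) := by
    simp only [smul_eq_mul, Complex.real_smul]
    ring
  rw [this, map_smul, RCLike.real_smul_eq_coe_smul (K := 𝕜)]

/-- the square integrable functions all of whose rotations are represented in `M` -/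
def N0 (M : Submodule 𝕜 (Lp 𝕜 p mu)) : Submodule ℂ Hs where
  carrier := {ζ | ∀ z : ℂ, FM M fun x => RCLike.map ℂ 𝕜 (z * (ζ : ℝ × ℤ → ℂ) x)}
  zero_mem' := fun z => FM.zero.congr (by
    filter_upwards [Lp.coeFn_zero ℂ 2 mu] with x hx
    rw [hx]
    simp)
  add_mem' := fun {a b} ha hb z => ((ha z).add (hb z)).congr (by
    filter_upwards [Lp.coeFn_add a b] with x hx
    rw [hx, Pi.add_apply, mul_add, map_add])
  smul_mem' := fun c a ha z => (ha (z * c)).congr (by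
    filter_upwards [Lp.coeFn_smul c a] with x hx
    rw [hx, Pi.smul_apply, smul_eq_mul, mul_assoc])

variable {M : Submodule 𝕜 (Lp 𝕜 p mu)}

theorem fm_N0 {f : ℝ × ℤ → ℂ} (hf : MemLp f 2 mu)
    (h : ∀ z : ℂ, FM M fun x => RCLike.map ℂ 𝕜 (z * f x)) : FM (N0 M) f := by
  refine ⟨hf.toLp f, fun z => (h z).congr ?_, hf.coeFn_toLp⟩
  filter_upwards [hf.coeFn_toLp] with x hx
  rw [hx]

theorem N0_op {S : Set ℝ} {s : ℝ} {k : ℤ} {C : ℝ} (h : Bd S s k C)
    (hM : ∀ f, FM M f → FM M (ct S (sh 𝕜 s k f))) (f : ℝ × ℤ → ℂ) (hf : FM (N0 M) f) :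
    FM (N0 M) (ct S (sh ℂ s k f)) := by
  refine fm_N0 (h.memLp hf.memLp) fun z => ?_
  obtain ⟨ζ, hζ, h1⟩ := hf
  have h2 : FM M fun x => RCLike.map ℂ 𝕜 (z * f x) := (hζ z).congr (by
    filter_upwards [h1] with x hx
    rw [hx])
  refine (hM _ h2).congr (Eventually.of_forall fun x => ?_)
  rw [ct_sh_eq, ct_sh_eq]
  exact (pi_smul z _ _).symm

theorem good_N0 (hG : Good M) : Good (N0 M) where
  cut S hS f hf := by
    have := N0_op (bd_up hS le_rfl) (fun f hf => by rw [sh_zero]; exact hG.cut S hS f hf) f hf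
    rwa [sh_zero] at this
  dy k N f hf := by
    obtain ⟨C, hC⟩ := bd_dy k N le_rfl
    have := N0_op hC (fun f hf => by rw [ct_univ]; exact hG.dy k N f hf) f hf
    rwa [ct_univ] at this
  up f hf := by
    have := N0_op (bd_up MeasurableSet.univ zero_le_one)
      (fun f hf => by rw [ct_univ]; exact hG.up f hf) f hf
    rwa [ct_univ] at this
  key f hf := by
    obtain ⟨C, hC⟩ := bd_key
    exact N0_op hC hG.key f hf

theorem N0_ne_bot [Fact (1 ≤ p)] (hq : p ≠ ∞) (hG : Good M) (hM : M ≠ ⊥) : N0 M ≠ ⊥ := by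
  intro h0
  obtain ⟨ξ, hξ, hξ0⟩ := Submodule.exists_mem_ne_zero_of_ne_bot hM
  have hp1 : 1 ≤ p := Fact.out
  have hp0 : p ≠ 0 := (zero_lt_one.trans_le hp1).ne'
  have hr : 1 ≤ p.toReal := by simpa using ENNReal.toReal_mono hq hp1
  let S : ℕ → Set ℝ := fun K =>
    Set.Icc (-(K : ℝ)) K ∩ ⋂ n : ℤ, {t | ‖(ξ : ℝ × ℤ → 𝕜) (t, n)‖ ≤ K}
  have hS : ∀ K, MeasurableSet (S K) := fun K => measurableSet_Icc.inter
    (MeasurableSet.iInter fun n => measurableSet_le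
      ((Lp.stronglyMeasurable ξ).norm.measurable.comp (measurable_id.prodMk measurable_const))
      measurable_const)
  have hS0 : ∀ K, volume (S K) ≠ ∞ := fun K =>
    ((measure_mono Set.inter_subset_left).trans_lt measure_Icc_lt_top).ne
  have h1 : ∀ K, ∀ᵐ x ∂mu, ct (S K) (sh 𝕜 0 1 ξ) x = 0 := by
    intro K
    have hg := hG.cut _ (hS K) _ (hG.up _ (FM.of_mem hξ))
    have h2 : MemLp (fun x => RCLike.map 𝕜 ℂ (ct (S K) (sh 𝕜 0 1 ξ) x)) 2 mu := by
      refine MemLp.of_le_mul (c := ‖RCLike.map 𝕜 ℂ‖ * K)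
        (memLp_ww (hS K) (hS0 K) one_le_two ENNReal.ofNat_ne_top)
        ((RCLike.map 𝕜 ℂ).continuous.comp_aestronglyMeasurable hg.memLp.1)
        (Eventually.of_forall fun x => ?_)
      refine ((RCLike.map 𝕜 ℂ).le_opNorm _).trans ?_
      rw [mul_assoc]
      refine mul_le_mul_of_nonneg_left ?_ (norm_nonneg _)
      by_cases hx : x.1 ∈ S K
      · rw [ct_of_mem _ hx, ct_of_mem _ hx, sh, norm_smul, RCLike.norm_ofReal, mul_comm, sub_zero]
        exact mul_le_mul_of_nonneg_right (Set.mem_iInter.1 hx.2 _) (abs_nonneg _)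
      · rw [ct_of_notMem _ hx, ct_of_notMem _ hx]
        simp
    obtain ⟨ζ, hζ, h3⟩ := fm_N0 (M := M) h2 fun z => by
      simpa only [pi_mul, smul_eq_mul] using hg.smul (RCLike.map ℂ 𝕜 z)
    rw [h0, Submodule.mem_bot] at hζ
    filter_upwards [h3, Lp.coeFn_zero ℂ 2 mu] with x hx hx0
    have h4 := pi_mul 1 (ct (S K) (sh 𝕜 0 1 ξ) x)
    rw [← hx, hζ, hx0, pi_one, one_mul, one_mul] at h4
    simpa using h4.symm
  have h2 := ((Lp.memLp ξ).integrable_norm_rpow hp0 hq).prod_right_ae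
  apply hξ0
  refine Lp.eq_zero_iff_ae_eq_zero.2 (ae_mu_of (p := fun x => (ξ : ℝ × ℤ → 𝕜) x = 0) ?_)
  filter_upwards [h2, ae_mu_iff (ae_all_iff.2 h1)] with t ht h3 n
  have h4 := integrable_count_iff.1 ht
  obtain ⟨K, hK⟩ := exists_nat_ge (max |t| (max 1 (∑' m : ℤ,
    ‖‖(ξ : ℝ × ℤ → 𝕜) (t, m)‖ ^ p.toReal‖)))
  have h5 : t ∈ S K := by
    refine ⟨abs_le.1 ((le_max_left _ _).trans hK), Set.mem_iInter.2 fun m => ?_⟩
    refine le_trans ?_ ((le_max_right _ _).trans hK)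
    rcases le_total ‖(ξ : ℝ × ℤ → 𝕜) (t, m)‖ 1 with h | h
    · exact h.trans (le_max_left _ _)
    · refine le_trans ?_ (le_max_right _ _)
      refine le_trans ?_ (h4.le_tsum m fun _ _ => norm_nonneg _)
      exact (Real.self_le_rpow_of_one_le h hr).trans (le_abs_self _)
  have h6 := h3 (n + 1) K
  rw [ct_of_mem _ h5, sh, smul_eq_zero] at h6
  rcases h6 with h6 | h6
  · exact absurd (RCLike.ofReal_eq_zero.1 h6) (ww_pos _ _ _).ne'
  · simpa using h6

theorem vol_proj_le {A : Set (ℝ × ℤ)} (hA : MeasurableSet A) :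
    MeasurableSet {t : ℝ | ∃ m : ℤ, (t, m) ∈ A} ∧ volume {t : ℝ | ∃ m : ℤ, (t, m) ∈ A} ≤ mu A := by
  have h1 : MeasurableSet {t : ℝ | ∃ m : ℤ, (t, m) ∈ A} := by
    rw [Set.ofPred_exists]
    exact MeasurableSet.iUnion fun m => (measurable_id.prodMk measurable_const) hA
  refine ⟨h1, ?_⟩
  rw [mu, Measure.prod_apply hA, ← lintegral_indicator_one h1]
  refine lintegral_mono fun t => Set.indicator_apply_le' (fun ht => ?_) fun _ => zero_le
  obtain ⟨m, hm⟩ := ht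
  calc (1 : ℝ≥0∞) = Measure.count ({m} : Set ℤ) := (Measure.count_singleton m).symm
    _ ≤ _ := measure_mono (Set.singleton_subset_iff.2 hm)

theorem mu_prod (S : Set ℝ) (n : ℤ) : mu (S ×ˢ {n}) = volume S := by
  rw [mu, Measure.prod_prod, Measure.count_singleton, mul_one]

/-- the indicator functions of horizontal pieces are represented in `M` -/
theorem fm_piece [Fact (1 ≤ p)] (hq : p ≠ ∞) (hc : IsClosed (M : Set (Lp 𝕜 p mu))) (hG : Good M)
    (hM : M ≠ ⊥) {S : Set ℝ} (hS : MeasurableSet S) (hS0 : volume S ≠ ∞) (n : ℤ) :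
    FM M ((S ×ˢ {n}).indicator fun _ => (1 : 𝕜)) := by
  have hd := Submodule.topologicalClosure_eq_top_iff.2 (core (good_N0 hG) (N0_ne_bot hq hG hM))
  obtain ⟨K, hK⟩ := ww_inv_le n
  have hK0 : 0 ≤ K := (inv_pos.2 (ww_pos 0 1 (0, n))).le.trans (hK 0)
  have hA : MeasurableSet (S ×ˢ ({n - 1} : Set ℤ)) := hS.prod (measurableSet_singleton _)
  let f : ℝ × ℤ → ℂ := (S ×ˢ {n - 1}).indicator fun x => (((ww 0 1 (x.1, n))⁻¹ : ℝ) : ℂ)
  have hfm : Measurable f := (Complex.measurable_ofReal.comp (((ww_measurable 0 1).comp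
    (measurable_fst.prodMk measurable_const)).inv)).indicator hA
  have hfb : ∀ x, ‖f x‖ ≤ ‖(S ×ˢ ({n - 1} : Set ℤ)).indicator (fun _ => K) x‖ := by
    intro x
    by_cases hx : x ∈ S ×ˢ ({n - 1} : Set ℤ)
    · simp only [f, Set.indicator_of_mem hx]
      rw [Complex.norm_real, Real.norm_of_nonneg (inv_pos.2 (ww_pos _ _ _)).le,
        Real.norm_of_nonneg hK0]
      exact hK _
    · simp only [f, Set.indicator_of_notMem hx]
      simp
  have hfK : ∀ x, ‖f x‖ ≤ K := fun x => (hfb x).trans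
    ((norm_indicator_le_norm_self _ _).trans (Real.norm_of_nonneg hK0).le)
  have hf : MemLp f 2 mu :=
    (memLp_indicator_const 2 hA K (Or.inr (by rwa [mu_prod]))).of_le hfm.aestronglyMeasurable
      (Eventually.of_forall hfb)
  have h1 : hf.toLp f ∈ closure (N0 M : Set Hs) := by
    rw [← Submodule.topologicalClosure_coe, hd]
    trivial
  obtain ⟨u, hu, hlim⟩ := mem_closure_iff_seq_limit.1 h1
  have h2 := tendstoInMeasure_iff_norm.1
    ((tendstoInMeasure_of_tendsto_Lp hlim).congr_right hf.coeFn_toLp)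
  have h3 : ∀ i : ℕ, ∃ ζ ∈ N0 M, mu {x | 1 / ((i : ℝ) + 1) ≤ ‖(ζ : ℝ × ℤ → ℂ) x - f x‖} ≤
      (2⁻¹ : ℝ≥0∞) ^ i := by
    intro i
    obtain ⟨j, hj⟩ := ((h2 _ (Nat.one_div_pos_of_nat (n := i))).eventually
      (ge_mem_nhds (ENNReal.pow_pos (ENNReal.inv_pos.2 (ENNReal.ofNat_ne_top (n := 2))) i))).exists
    exact ⟨u j, hu j, hj⟩
  choose ζ hζ hζm using h3
  have h4 : ∀ i : ℕ, MeasurableSet {x | 1 / ((i : ℝ) + 1) ≤ ‖(ζ i : ℝ × ℤ → ℂ) x - f x‖} :=
    fun i => measurableSet_le measurable_const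
      ((Lp.stronglyMeasurable (ζ i)).measurable.sub hfm).norm
  let B : ℕ → Set ℝ := fun i =>
    {t | ∃ m : ℤ, (t, m) ∈ {x | 1 / ((i : ℝ) + 1) ≤ ‖(ζ i : ℝ × ℤ → ℂ) x - f x‖}}
  have hB : ∀ᵐ t : ℝ, ∀ᶠ i in atTop, t ∉ B i := by
    refine ae_eventually_notMem (ne_top_of_le_ne_top ?_
      (ENNReal.tsum_le_tsum fun i => (vol_proj_le (h4 i)).2.trans (hζm i)))
    rw [ENNReal.tsum_geometric, ENNReal.one_sub_inv_two, inv_inv]
    exact ENNReal.ofNat_ne_top
  have hnB : ∀ i t m, t ∉ B i → ‖(ζ i : ℝ × ℤ → ℂ) (t, m) - f (t, m)‖ ≤ 1 / ((i : ℝ) + 1) :=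
    fun i t m h => (not_le.1 fun h' => h ⟨m, h'⟩).le
  refine FM.lim hq hc ((memLp_ww hS hS0 Fact.out hq).const_mul (‖RCLike.map ℂ 𝕜‖ * (K + 1)))
    (fun i => hG.cut (S \ B i) (hS.diff (vol_proj_le (h4 i)).1) _ (hG.up _ (hζ i 1)))
    (fun i => Eventually.of_forall fun x => ?_) ?_
  · by_cases hx : x.1 ∈ S \ B i
    · rw [ct_of_mem _ hx, ct_of_mem _ hx.1, sh, norm_smul, RCLike.norm_ofReal, mul_comm, sub_zero,
        abs_of_pos (ww_pos _ _ _), one_mul]
      refine mul_le_mul_of_nonneg_right (((RCLike.map ℂ 𝕜).le_opNorm _).trans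
        (mul_le_mul_of_nonneg_left ?_ (norm_nonneg _))) (ww_pos _ _ _).le
      have h5 := hnB i x.1 (x.2 - 1) hx.2
      have h6 : 1 / ((i : ℝ) + 1) ≤ 1 := by
        rw [div_le_one (by positivity)]
        linarith [Nat.cast_nonneg (α := ℝ) i]
      have h7 := norm_sub_norm_le ((ζ i : ℝ × ℤ → ℂ) (x.1, x.2 - 1)) (f (x.1, x.2 - 1))
      linarith [hfK (x.1, x.2 - 1)]
    · rw [ct_of_notMem _ hx, norm_zero]
      exact mul_nonneg (by positivity) (ct_ww_nonneg _ _ _ _)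
  · refine ae_mu_of ?_
    filter_upwards [hB] with t ht m
    by_cases htS : t ∈ S
    · have h5 : Tendsto (fun i => (ζ i : ℝ × ℤ → ℂ) (t, m - 1)) atTop (𝓝 (f (t, m - 1))) := by
        rw [tendsto_iff_norm_sub_tendsto_zero]
        refine squeeze_zero' (Eventually.of_forall fun i => norm_nonneg _) ?_
          tendsto_one_div_add_atTop_nhds_zero_nat
        filter_upwards [ht] with i hi using hnB i t _ hi
      have h6 := (((RCLike.map ℂ 𝕜).continuous.tendsto _).comp (h5.const_mul 1)).const_smul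
        ((ww 0 1 (t, m) : ℝ) : 𝕜)
      have h7 : ((ww 0 1 (t, m) : ℝ) : 𝕜) • RCLike.map ℂ 𝕜 (1 * f (t, m - 1)) =
          (S ×ˢ {n}).indicator (fun _ => (1 : 𝕜)) (t, m) := by
        by_cases hm : m = n
        · subst hm
          have e1 : (t, m - 1) ∈ S ×ˢ ({m - 1} : Set ℤ) := ⟨htS, rfl⟩
          have e2 : (t, m) ∈ S ×ˢ ({m} : Set ℤ) := ⟨htS, rfl⟩
          simp only [f, Set.indicator_of_mem e1, Set.indicator_of_mem e2]
          rw [← pi_smul, smul_eq_mul, ← Complex.ofReal_mul, one_mul,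
            mul_inv_cancel₀ (ww_pos _ _ _).ne', Complex.ofReal_one, pi_one]
        · have e1 : (t, m - 1) ∉ S ×ˢ ({n - 1} : Set ℤ) := fun h => hm (by simpa using h.2)
          have e2 : (t, m) ∉ S ×ˢ ({n} : Set ℤ) := fun h => hm h.2
          simp only [f, Set.indicator_of_notMem e1, Set.indicator_of_notMem e2]
          simp
      rw [h7] at h6
      refine h6.congr' ?_
      filter_upwards [ht] with i hi
      rw [ct_of_mem _ (show (t, m).1 ∈ S \ B i from ⟨htS, hi⟩), sh, sub_zero]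
      rfl
    · rw [Set.indicator_of_notMem fun h => htS h.1]
      refine tendsto_const_nhds.congr fun i => ?_
      rw [ct_of_notMem _ fun h => htS h.1]

/-- a closed good subspace of scalar `L^p` is trivial -/
theorem good_trivial [Fact (1 ≤ p)] (hq : p ≠ ∞) (hc : IsClosed (M : Set (Lp 𝕜 p mu)))
    (hG : Good M) : M = ⊥ ∨ M = ⊤ := by
  refine or_iff_not_imp_left.2 fun hM => Submodule.eq_top_iff'.2 fun x => ?_
  refine Lp.induction hq (fun f => f ∈ M) (fun c s hs hμs => ?_)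
    (fun f g hf hg _ h1 h2 => M.add_mem h1 h2) hc x
  have h1 := FM.iUnion hq hc (memLp_indicator_const p hs c (Or.inr hμs.ne))
    (S := fun j => {x : ℝ × ℤ | x.2 = Equiv.intEquivNat.symm j}) ?_ ?_
  · refine FM.mem (h1.congr ?_)
    rw [Lp.simpleFunc.coe_indicatorConst]
    filter_upwards [indicatorConstLp_coeFn (p := p) (hs := hs) (hμs := hμs.ne) (c := c)] with x hx
    rw [hx, Set.indicator_of_mem]
    exact Set.mem_iUnion.2 ⟨Equiv.intEquivNat x.2, by simp⟩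
  · intro i j hij
    refine Set.disjoint_left.2 fun x h1 h2 => hij ?_
    exact Equiv.intEquivNat.symm.injective (h1.symm.trans h2)
  · intro j
    set n := Equiv.intEquivNat.symm j
    have hsub : {t : ℝ | (t, n) ∈ s} ×ˢ ({n} : Set ℤ) ⊆ s := by
      rintro ⟨t, m⟩ ⟨h1, h2⟩
      have h3 : m = n := h2
      rwa [h3]
    refine ((fm_piece hq hc hG hM (S := {t : ℝ | (t, n) ∈ s})
      ((measurable_id.prodMk measurable_const) hs) ?_ n).smul c).congr
      (Eventually.of_forall fun x => ?_)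
    · rw [← mu_prod _ n]
      exact ((measure_mono hsub).trans_lt hμs).ne
    · obtain ⟨t, m⟩ := x
      by_cases hm : m = n
      · subst hm
        by_cases ht : (t, n) ∈ s <;> simp [ht]
      · simp [hm]

end Vale.Agent.N131L
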